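import Vale.Agent.P065.H537.ExtNet

/-!
# P065, upper bound, block [EXTRACT] (helper537): cells of one class
-/

set_option autoImplicit false

namespace Vale.Agent.P065.H537

open Finset Vale.Agent.P065.UB
open Vale.Agent.P118.OF (Cov Sep)

theorem exists_net' (X : Finset ℝ) {δ : ℝ} (hδ : 0 < δ) :
    ∃ (B : Finset ℝ) (b : ℝ → ℝ), B ⊆ X ∧ Sep δ B ∧ ∀ x ∈ X, b x ∈ B ∧ |x - b x| < δ := by
  obtain ⟨B, b, h1, h2, h3⟩ := exists_net X (δ := δ)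
  refine ⟨B, b, h1, h2, fun x hx => ?_⟩
  rcases h3 x hx with h | h
  · exact h
  · exact absurd h (not_le.2 hδ)

open Classical in
/-- the heavy cells of a set of points -/
noncomputable def Cc (K m : ℝ) (κ : ℝ × ℝ → ℝ × ℝ) (T : Finset (ℝ × ℝ)) : Finset (ℝ × ℝ) :=
  (T.image κ).filter (fun p => m ≤ K ^ 12 * #{q ∈ T | κ q = p})

open Classical in
theorem mem_Cc {K m : ℝ} {κ : ℝ × ℝ → ℝ × ℝ} {T : Finset (ℝ × ℝ)} {p : ℝ × ℝ} :
    p ∈ Cc K m κ T ↔ (∃ q ∈ T, κ q = p) ∧ m ≤ K ^ 12 * #{q ∈ T | κ q = p} := by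
  unfold Cc
  rw [mem_filter, mem_image]

open Classical in
/-- few cells on a strip -/
theorem strip_cells {K n δ a z : ℝ} (hK : 2 ≤ K) (hδ : 0 < δ) (ha : |a| ≤ K) {B H : Finset ℝ}
    (hB : Sep δ B) (hH : (#H : ℝ) ≤ K * n) {κ : ℝ × ℝ → ℝ × ℝ} {T : Finset (ℝ × ℝ)}
    (hκ : ∀ q ∈ T, (κ q).1 ∈ B ∧ (κ q).2 ∈ H ∧ |q.1 - (κ q).1| < δ ∧ |q.2 - (κ q).2| < δ)
    (hz : ∀ q ∈ T, |q.1 + a * q.2 - z| ≤ δ) : (#(T.image κ) : ℝ) ≤ K ^ 5 * n := by
  have hK0 : 0 < K := by linarith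
  have h1 : T.image κ ⊆ H.biUnion (fun η => (B.filter (fun β => |β - (z - a * η)| ≤
      (K + 2) * δ)).image (fun β => (β, η))) := by
    intro p hp
    obtain ⟨q, hq, rfl⟩ := mem_image.1 hp
    obtain ⟨k1, k2, k3, k4⟩ := hκ q hq
    refine mem_biUnion.2 ⟨(κ q).2, k2, mem_image.2 ⟨(κ q).1, mem_filter.2 ⟨k1, ?_⟩, rfl⟩⟩
    have h2 := abs_le.1 (hz q hq)
    have h3 := abs_lt.1 k3
    have h4 : |a * (q.2 - (κ q).2)| ≤ K * δ := by
      rw [abs_mul]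
      exact mul_le_mul ha k4.le (abs_nonneg _) hK0.le
    have h5 := abs_le.1 h4
    rw [abs_le]
    constructor <;> nlinarith
  calc (#(T.image κ) : ℝ) ≤ #(H.biUnion (fun η => (B.filter (fun β => |β - (z - a * η)| ≤
      (K + 2) * δ)).image (fun β => (β, η)))) := by exact_mod_cast card_le_card h1
    _ ≤ ∑ η ∈ H, (#((B.filter (fun β => |β - (z - a * η)| ≤
      (K + 2) * δ)).image (fun β => (β, η))) : ℝ) := by exact_mod_cast card_biUnion_le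
    _ ≤ ∑ η ∈ H, (2 * (K + 2) + 2) := by
        apply sum_le_sum
        intro η _
        refine le_trans ?_ (card_sep_interval (c := z - a * η) hδ hB (by linarith))
        exact_mod_cast card_image_le
    _ = #H * (2 * (K + 2) + 2) := by rw [sum_const, nsmul_eq_mul]
    _ ≤ (K * n) * (2 * (K + 2) + 2) := mul_le_mul_of_nonneg_right hH (by linarith)
    _ ≤ (K * n) * K ^ 4 := by
        have hn0 : 0 ≤ K * n := le_trans (Nat.cast_nonneg _) hH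
        apply mul_le_mul_of_nonneg_left _ hn0
        have e1 : (2 : ℝ) ^ 3 ≤ K ^ 3 := pow_le_pow_left₀ (by norm_num) hK 3
        nlinarith [mul_le_mul_of_nonneg_left e1 hK0.le]
    _ = K ^ 5 * n := by ring

open Classical in
/-- the points of a set, cell by cell -/
theorem card_by_cells (κ : ℝ × ℝ → ℝ × ℝ) (T : Finset (ℝ × ℝ)) (P : Finset (ℝ × ℝ)) :
    ∑ p ∈ P, #{q ∈ T | κ q = p} = #{q ∈ T | κ q ∈ P} := by
  have h1 : #{q ∈ T | κ q ∈ P} = ∑ p ∈ P, #{q ∈ {q ∈ T | κ q ∈ P} | κ q = p} :=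
    card_eq_sum_card_fiberwise (fun q hq => (mem_filter.1 (mem_coe.1 hq)).2)
  rw [h1]
  apply sum_congr rfl
  intro p hp
  congr 1
  ext q
  simp only [mem_filter]
  constructor
  · rintro ⟨h2, h3⟩
    exact ⟨⟨h2, by rw [h3]; exact hp⟩, h3⟩
  · rintro ⟨⟨h2, _⟩, h3⟩
    exact ⟨h2, h3⟩

open Classical in
/-- the light cells carry few points -/
theorem light_cells {K m : ℝ} (hm : 0 ≤ m) (κ : ℝ × ℝ → ℝ × ℝ) (T : Finset (ℝ × ℝ)) :
    K ^ 12 * (#T : ℝ) ≤ K ^ 12 * (#{q ∈ T | κ q ∈ Cc K m κ T} : ℝ) + #(T.image κ) * m := by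
  have h1 : #T = ∑ p ∈ T.image κ, #{q ∈ T | κ q = p} := by
    rw [card_by_cells]
    congr 1
    ext q
    simp only [mem_filter]
    exact ⟨fun h => ⟨h, mem_image_of_mem _ h⟩, fun h => h.1⟩
  have h2 : ∑ p ∈ T.image κ, (#{q ∈ T | κ q = p} : ℝ) =
      ∑ p ∈ Cc K m κ T, (#{q ∈ T | κ q = p} : ℝ) +
      ∑ p ∈ (T.image κ).filter (fun p => ¬ m ≤ K ^ 12 * #{q ∈ T | κ q = p}),
        (#{q ∈ T | κ q = p} : ℝ) := by
    unfold Cc
    rw [sum_filter_add_sum_filter_not]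
  have h3 : ∑ p ∈ Cc K m κ T, (#{q ∈ T | κ q = p} : ℝ) = #{q ∈ T | κ q ∈ Cc K m κ T} := by
    exact_mod_cast card_by_cells κ T (Cc K m κ T)
  have h4 : K ^ 12 * ∑ p ∈ (T.image κ).filter (fun p => ¬ m ≤ K ^ 12 * #{q ∈ T | κ q = p}),
        (#{q ∈ T | κ q = p} : ℝ) ≤ #(T.image κ) * m := by
    rw [mul_sum]
    calc ∑ p ∈ (T.image κ).filter (fun p => ¬ m ≤ K ^ 12 * #{q ∈ T | κ q = p}),
          K ^ 12 * (#{q ∈ T | κ q = p} : ℝ)
        ≤ ∑ p ∈ (T.image κ).filter (fun p => ¬ m ≤ K ^ 12 * #{q ∈ T | κ q = p}), m :=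
          sum_le_sum fun p hp => (not_le.1 (mem_filter.1 hp).2).le
      _ = #((T.image κ).filter (fun p => ¬ m ≤ K ^ 12 * #{q ∈ T | κ q = p})) * m := by
          rw [sum_const, nsmul_eq_mul]
      _ ≤ _ := by
          apply mul_le_mul_of_nonneg_right _ hm
          exact_mod_cast card_filter_le _ _
  have h5 : (#T : ℝ) = ∑ p ∈ T.image κ, (#{q ∈ T | κ q = p} : ℝ) := by exact_mod_cast h1
  rw [h5, h2, mul_add, h3]
  linarith

end Vale.Agent.P065.H537
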