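import Vale.Agent.P065.H537.ExtMass

/-!
# P065, upper bound, block [EXTRACT] (helper537): fullness, dimension and star for the cells
-/

set_option autoImplicit false

namespace Vale.Agent.P065.H537

open Finset Vale.Agent.P065.UB
open Vale.Agent.P118.OF (Cov Sep)

/-- rounding data -/
structure Net (K n δ : ℝ) (G : Finset (ℝ × ℝ)) (B H : Finset ℝ) (κ : ℝ × ℝ → ℝ × ℝ) : Prop where
  sB : Sep δ B
  sH : Sep δ H
  cB : (#B : ℝ) ≤ K * n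
  cH : (#H : ℝ) ≤ K * n
  kap : ∀ q ∈ G, (κ q).1 ∈ B ∧ (κ q).2 ∈ H ∧ |q.1 - (κ q).1| < δ ∧ |q.2 - (κ q).2| < δ
  bB : ∀ x ∈ B, |x| ≤ 1
  bH : ∀ y ∈ H, |y| ≤ 1

section
variable {K n m δ : ℝ} {ι : Type} {Q0 G : Finset (ℝ × ℝ)} {A0 : Finset ℝ}
  {E : Finset (ℝ × (ℝ × ℝ))} {om : ℝ → ℝ × ℝ → ι} {W : Finset ι} {R : ι → Finset (ℝ × ℝ)}
  {zc : ℝ → ι → ℝ}

theorem PreC.exists_Net (h : PreC K n m δ Q0 G A0 E om W R zc) :
    ∃ (B H : Finset ℝ) (κ : ℝ × ℝ → ℝ × ℝ), Net K n δ G B H κ := by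
  classical
  obtain ⟨B, b, hB1, hB2, hB3⟩ := exists_net' (G.image Prod.fst) h.δ0
  obtain ⟨H, b', hH1, hH2, hH3⟩ := exists_net' (G.image Prod.snd) h.δ0
  refine ⟨B, H, fun q => (b q.1, b' q.2), hB2, hH2, ?_, ?_, ?_, ?_, ?_⟩
  · refine le_trans ?_ h.covX
    have h1 := card_le_floors h.δ0 hB2 hB1
    rw [image_image] at h1
    exact_mod_cast h1
  · refine le_trans ?_ h.covY
    have h1 := card_le_floors h.δ0 hH2 hH1
    rw [image_image] at h1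
    exact_mod_cast h1
  · intro q hq
    exact ⟨(hB3 _ (mem_image_of_mem _ hq)).1, (hH3 _ (mem_image_of_mem _ hq)).1,
      (hB3 _ (mem_image_of_mem _ hq)).2, (hH3 _ (mem_image_of_mem _ hq)).2⟩
  · intro x hx
    obtain ⟨q, hq, rfl⟩ := mem_image.1 (hB1 hx)
    exact (h.box q hq).1
  · intro x hx
    obtain ⟨q, hq, rfl⟩ := mem_image.1 (hH1 hx)
    exact (h.box q hq).2

variable {B H : Finset ℝ} {κ : ℝ × ℝ → ℝ × ℝ}

open Classical in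
/-- few points in a cell -/
theorem PreC.card_fib (h : PreC K n m δ Q0 G A0 E om W R zc) (hN : Net K n δ G B H κ)
    (p : ℝ × ℝ) : (#{q ∈ G | κ q = p} : ℝ) ≤ K * m := by
  refine le_trans ?_ (h.cell p.1 p.2)
  have : #{q ∈ G | κ q = p} ≤ #{q ∈ G | |q.1 - p.1| ≤ δ ∧ |q.2 - p.2| ≤ δ} := by
    apply card_le_card
    intro q hq
    obtain ⟨h1, h2⟩ := mem_filter.1 hq
    obtain ⟨_, _, h3, h4⟩ := hN.kap q h1
    rw [h2] at h3 h4
    exact mem_filter.2 ⟨h1, h3.le, h4.le⟩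
  exact_mod_cast this

open Classical in
/-- **FULL** -/
theorem PreC.full_cells (h : PreC K n m δ Q0 G A0 E om W R zc) (hN : Net K n δ G B H κ) {a : ℝ}
    (ha : a ∈ A0) {S : Finset ι} (hS : (#S : ℝ) ≤ K * n)
    (hmass : n ^ 2 * m ≤ K ^ 5 * ∑ w ∈ S, (#(Tf G E om a w) : ℝ)) :
    n ^ 2 ≤ K ^ 7 * #(S.biUnion fun w => Cc K m κ (Tf G E om a w)) := by
  have hK := h.hK
  have hK0 : 0 < K := by linarith
  have hn0 : 0 < n := by linarith [h.n1]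
  have hm0 := h.m0
  set T := Tf G E om a with hT
  set U := S.biUnion fun w => Cc K m κ (T w) with hU
  have hTG : ∀ w, T w ⊆ G := fun w q hq => (mem_Tf.1 hq).1
  have i1 : K ^ 12 * ∑ w ∈ S, (#(T w) : ℝ) ≤
      K ^ 12 * ∑ w ∈ S, (#{q ∈ T w | κ q ∈ Cc K m κ (T w)} : ℝ) + K ^ 6 * (n ^ 2 * m) := by
    have j1 : ∀ w ∈ S, K ^ 12 * (#(T w) : ℝ) ≤
        K ^ 12 * (#{q ∈ T w | κ q ∈ Cc K m κ (T w)} : ℝ) + K ^ 5 * n * m := by
      intro w _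
      refine (light_cells hm0.le κ (T w)).trans ?_
      have j2 : (#((T w).image κ) : ℝ) ≤ K ^ 5 * n := by
        apply strip_cells (z := zc a w) hK h.δ0 (h.absA a ha).2 hN.sB hN.cH
        · intro q hq
          exact hN.kap q (hTG w hq)
        · intro q hq
          obtain ⟨_, h4, h5⟩ := mem_Tf.1 hq
          have := h.near _ h4
          simp only at this
          rw [h5] at this
          exact this
      have j3 := mul_le_mul_of_nonneg_right j2 hm0.le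
      linarith
    calc K ^ 12 * ∑ w ∈ S, (#(T w) : ℝ) = ∑ w ∈ S, K ^ 12 * (#(T w) : ℝ) := by rw [mul_sum]
      _ ≤ ∑ w ∈ S, (K ^ 12 * (#{q ∈ T w | κ q ∈ Cc K m κ (T w)} : ℝ) + K ^ 5 * n * m) :=
          sum_le_sum j1
      _ = K ^ 12 * ∑ w ∈ S, (#{q ∈ T w | κ q ∈ Cc K m κ (T w)} : ℝ) + #S * (K ^ 5 * n * m) := by
          rw [sum_add_distrib, sum_const, nsmul_eq_mul, mul_sum]
      _ ≤ K ^ 12 * ∑ w ∈ S, (#{q ∈ T w | κ q ∈ Cc K m κ (T w)} : ℝ) +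
          (K * n) * (K ^ 5 * n * m) := by
          have := mul_le_mul_of_nonneg_right hS (by positivity : 0 ≤ K ^ 5 * n * m)
          linarith
      _ = _ := by ring
  have i2 : ∑ w ∈ S, (#{q ∈ T w | κ q ∈ Cc K m κ (T w)} : ℝ) ≤ #U * (K * m) := by
    have j1 : ∑ w ∈ S, #{q ∈ T w | κ q ∈ Cc K m κ (T w)} =
        #(S.biUnion fun w => {q ∈ T w | κ q ∈ Cc K m κ (T w)}) := by
      symm
      apply card_biUnion
      intro w hw w' hw' hne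
      have := Tf_disj G E om a S hw hw' hne
      exact disjoint_of_subset_left (filter_subset _ _)
        (disjoint_of_subset_right (filter_subset _ _) this)
    have j2 : (S.biUnion fun w => {q ∈ T w | κ q ∈ Cc K m κ (T w)}) ⊆ {q ∈ G | κ q ∈ U} := by
      intro q hq
      obtain ⟨w, hw, hq⟩ := mem_biUnion.1 hq
      obtain ⟨h1, h2⟩ := mem_filter.1 hq
      exact mem_filter.2 ⟨hTG w h1, mem_biUnion.2 ⟨w, hw, h2⟩⟩
    calc ∑ w ∈ S, (#{q ∈ T w | κ q ∈ Cc K m κ (T w)} : ℝ)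
        = #(S.biUnion fun w => {q ∈ T w | κ q ∈ Cc K m κ (T w)}) := by exact_mod_cast j1
      _ ≤ #{q ∈ G | κ q ∈ U} := by exact_mod_cast card_le_card j2
      _ = ∑ p ∈ U, (#{q ∈ G | κ q = p} : ℝ) := by exact_mod_cast (card_by_cells κ G U).symm
      _ ≤ ∑ p ∈ U, K * m := sum_le_sum fun p _ => h.card_fib hN p
      _ = _ := by rw [sum_const, nsmul_eq_mul]
  generalize ∑ w ∈ S, (#(T w) : ℝ) = X at i1 hmass
  generalize ∑ w ∈ S, (#{q ∈ T w | κ q ∈ Cc K m κ (T w)} : ℝ) = Z at i1 i2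
  have hU0 : (0 : ℝ) ≤ #U := Nat.cast_nonneg _
  generalize (#U : ℝ) = u at i2 hU0 ⊢
  have hnm : 0 < n ^ 2 * m := by positivity
  -- `K⁷ n² m ≤ K¹² X ≤ K¹² Z + K⁶ n² m`
  have i3 : K ^ 6 * (n ^ 2 * m) + K ^ 6 * (n ^ 2 * m) ≤ K ^ 12 * X := by
    calc K ^ 6 * (n ^ 2 * m) + K ^ 6 * (n ^ 2 * m) = 2 * (K ^ 6 * (n ^ 2 * m)) := by ring
      _ ≤ K * (K ^ 6 * (n ^ 2 * m)) := mul_le_mul_of_nonneg_right hK (by positivity)
      _ = K ^ 7 * (n ^ 2 * m) := by ring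
      _ ≤ K ^ 7 * (K ^ 5 * X) := mul_le_mul_of_nonneg_left hmass (by positivity)
      _ = K ^ 12 * X := by ring
  have i4 : K ^ 6 * (n ^ 2 * m) ≤ K ^ 12 * (u * (K * m)) := by
    have := mul_le_mul_of_nonneg_left i2 (by positivity : (0 : ℝ) ≤ K ^ 12)
    linarith
  have i5 : (K ^ 6 * m) * n ^ 2 ≤ (K ^ 6 * m) * (K ^ 7 * u) := by
    calc (K ^ 6 * m) * n ^ 2 = K ^ 6 * (n ^ 2 * m) := by ring
      _ ≤ K ^ 12 * (u * (K * m)) := i4
      _ = _ := by ring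
  exact le_of_mul_le_mul_left i5 (by positivity)

open Classical in
/-- points of the chosen cells in a box -/
theorem cells_box {T : Finset (ℝ × ℝ)} (hN : Net K n δ G B H κ) (hTG : T ⊆ G) {R' : Finset (ℝ × ℝ)}
    (hTR : T ⊆ R') {al t r s₀ h₀ : ℝ} (hK : 0 ≤ K) (hal : |al| ≤ K) (ht : δ ≤ t)
    (hr : δ ≤ r) :
    m * #{p ∈ Cc K m κ T | |p.1 + al * p.2 - s₀| ≤ t ∧ |p.2 - h₀| ≤ r} ≤
      K ^ 12 * #{q ∈ R' | Bx al ((K + 2) * t) (2 * r) s₀ h₀ q} := by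
  set P := (Cc K m κ T).filter (fun p => |p.1 + al * p.2 - s₀| ≤ t ∧ |p.2 - h₀| ≤ r) with hP
  have h1 : m * #P ≤ ∑ p ∈ P, K ^ 12 * (#{q ∈ T | κ q = p} : ℝ) := by
    calc m * #P = ∑ p ∈ P, m := by rw [sum_const, nsmul_eq_mul, mul_comm]
      _ ≤ _ := sum_le_sum fun p hp => (mem_Cc.1 (mem_filter.1 hp).1).2
  refine h1.trans ?_
  rw [← mul_sum]
  apply mul_le_mul_of_nonneg_left _ (by positivity)
  have h2 : ∑ p ∈ P, #{q ∈ T | κ q = p} = #{q ∈ T | κ q ∈ P} := card_by_cells κ T P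
  have h3 : ({q ∈ T | κ q ∈ P}) ⊆ {q ∈ R' | Bx al ((K + 2) * t) (2 * r) s₀ h₀ q} := by
    intro q hq
    obtain ⟨h4, h5⟩ := mem_filter.1 hq
    obtain ⟨_, h6, h7⟩ := mem_filter.1 h5
    obtain ⟨_, _, h8, h9⟩ := hN.kap q (hTG h4)
    refine mem_filter.2 ⟨hTR h4, ?_, ?_⟩
    · have e1 : |al * (q.2 - (κ q).2)| ≤ K * δ := by
        rw [abs_mul]
        exact mul_le_mul hal h9.le (abs_nonneg _) hK
      have e2 : K * δ ≤ K * t := mul_le_mul_of_nonneg_left ht hK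
      have e3 := abs_le.1 e1
      have e4 := abs_le.1 h6
      have e5 := abs_lt.1 h8
      rw [abs_le]
      constructor <;> nlinarith
    · have e4 := abs_le.1 h7
      have e5 := abs_lt.1 h9
      rw [abs_le]
      constructor <;> linarith
  calc ∑ p ∈ P, (#{q ∈ T | κ q = p} : ℝ) = #{q ∈ T | κ q ∈ P} := by exact_mod_cast h2
    _ ≤ _ := by exact_mod_cast card_le_card h3

open Classical in
/-- **STAR** for the cells -/
theorem PreC.star_cells (h : PreC K n m δ Q0 G A0 E om W R zc) (hN : Net K n δ G B H κ)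
    {A : Finset ℝ} {Wg : ℝ → Finset ι} (hWg : ∀ a ∈ A, Wg a ⊆ W)
    (hmult : ∀ w ∈ W, (#{a ∈ A | w ∈ Wg a} : ℝ) ≤ K ^ 40) {al t r s₀ h₀ : ℝ} (hal : |al| ≤ K)
    (ht : δ ≤ t) (hr : δ ≤ r) :
    ∑ a ∈ A, ∑ w ∈ Wg a, (m * (#{p ∈ Cc K m κ (Tf G E om a w) |
        |p.1 + al * p.2 - s₀| ≤ t ∧ |p.2 - h₀| ≤ r} : ℝ)) ^ 3 ≤
      K ^ 102 * n * m * (#{q ∈ Q0 | Bx al ((K + 2) * t) (2 * r) s₀ h₀ q} : ℝ) ^ 2 := by
  have hK := h.hK
  have hK0 : 0 < K := by linarith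
  have hK1 : 1 ≤ K := by linarith
  have hn1 := h.n1
  have hn0 : 0 < n := by linarith
  have hm0 := h.m0
  have hTG : ∀ a w, Tf G E om a w ⊆ G := fun a w q hq => (mem_Tf.1 hq).1
  have hdil : δ ≤ (K + 2) * t := by nlinarith [h.δ0]
  have hdil2 : δ ≤ 2 * r := by linarith [h.δ0]
  set N := (#{q ∈ Q0 | Bx al ((K + 2) * t) (2 * r) s₀ h₀ q} : ℝ) with hNdef
  have hN0 : 0 ≤ N := Nat.cast_nonneg _
  -- a trivial case
  by_cases hex : ∃ a ∈ A, ∃ w ∈ Wg a, ∃ p ∈ Cc K m κ (Tf G E om a w),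
      |p.1 + al * p.2 - s₀| ≤ t ∧ |p.2 - h₀| ≤ r
  swap
  · have h0 : ∑ a ∈ A, ∑ w ∈ Wg a, (m * (#{p ∈ Cc K m κ (Tf G E om a w) |
        |p.1 + al * p.2 - s₀| ≤ t ∧ |p.2 - h₀| ≤ r} : ℝ)) ^ 3 = 0 := by
      apply sum_eq_zero
      intro a ha
      apply sum_eq_zero
      intro w hw
      have : #{p ∈ Cc K m κ (Tf G E om a w) |
          |p.1 + al * p.2 - s₀| ≤ t ∧ |p.2 - h₀| ≤ r} = 0 := by
        rw [card_eq_zero, filter_eq_empty_iff]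
        intro p hp hcon
        exact hex ⟨a, ha, w, hw, p, hp, hcon⟩
      rw [this]
      simp
    rw [h0]
    positivity
  have hmN : m ≤ K ^ 12 * N := by
    obtain ⟨a, ha, w, hw, p, hp, hbox⟩ := hex
    have e1 := cells_box (m := m) hN (hTG a w) ((hTG a w).trans h.subG) hK0.le hal ht hr
      (s₀ := s₀) (h₀ := h₀)
    refine le_trans ?_ e1
    have e2 : (1 : ℝ) ≤ #{p ∈ Cc K m κ (Tf G E om a w) |
        |p.1 + al * p.2 - s₀| ≤ t ∧ |p.2 - h₀| ≤ r} := by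
      have : 0 < #{p ∈ Cc K m κ (Tf G E om a w) |
        |p.1 + al * p.2 - s₀| ≤ t ∧ |p.2 - h₀| ≤ r} := card_pos.2 ⟨p, mem_filter.2 ⟨hp, hbox⟩⟩
      exact_mod_cast this
    calc m = m * 1 := (mul_one m).symm
      _ ≤ _ := mul_le_mul_of_nonneg_left e2 hm0.le
  -- the flags
  set x : ι → ℝ := fun w => (#{q ∈ R w | Bx al ((K + 2) * t) (2 * r) s₀ h₀ q} : ℝ) with hx
  have hx0 : ∀ w, 0 ≤ x w := fun w => Nat.cast_nonneg _
  have i1 : ∑ a ∈ A, ∑ w ∈ Wg a, (m * (#{p ∈ Cc K m κ (Tf G E om a w) |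
        |p.1 + al * p.2 - s₀| ≤ t ∧ |p.2 - h₀| ≤ r} : ℝ)) ^ 3 ≤
      ∑ a ∈ A, ∑ w ∈ Wg a, K ^ 36 * x w ^ 3 := by
    apply sum_le_sum
    intro a _
    apply sum_le_sum
    intro w _
    have e1 := cells_box (m := m) hN (hTG a w) (h.Tf_sub a w) hK0.le hal ht hr
      (s₀ := s₀) (h₀ := h₀)
    calc _ ≤ (K ^ 12 * x w) ^ 3 := pow_le_pow_left₀ (by positivity) e1 3
      _ = K ^ 36 * x w ^ 3 := by ring
  have i2 : ∑ a ∈ A, ∑ w ∈ Wg a, K ^ 36 * x w ^ 3 ≤ K ^ 76 * ∑ w ∈ W, x w ^ 3 := by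
    have j1 : ∀ a ∈ A, ∑ w ∈ Wg a, K ^ 36 * x w ^ 3 =
        ∑ w ∈ W, if w ∈ Wg a then K ^ 36 * x w ^ 3 else 0 := by
      intro a ha
      rw [← sum_filter]
      apply sum_congr _ fun _ _ => rfl
      ext w
      rw [mem_filter]
      exact ⟨fun hw => ⟨hWg a ha hw, hw⟩, fun hw => hw.2⟩
    rw [sum_congr rfl j1, sum_comm, mul_sum]
    apply sum_le_sum
    intro w hw
    rw [← sum_filter, sum_const, nsmul_eq_mul]
    have := hx0 w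
    calc (#{a ∈ A | w ∈ Wg a} : ℝ) * (K ^ 36 * x w ^ 3) ≤ K ^ 40 * (K ^ 36 * x w ^ 3) :=
          mul_le_mul_of_nonneg_right (hmult w hw) (by positivity)
      _ = _ := by ring
  have i3 : ∑ w ∈ W, x w ^ 3 ≤ K * (n * m * N ^ 2 + (n ^ 2 * m) ^ 2) :=
    h.star al ((K + 2) * t) (2 * r) s₀ h₀ hal hdil hdil2
  have i4 : (n ^ 2 * m) ^ 2 ≤ K ^ 24 * (n * m * N ^ 2) := by
    have j1 : n ^ 3 ≤ m := le_trans (pow_le_pow_right₀ hn1 (by norm_num)) h.nm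
    have j2 : m ^ 2 ≤ K ^ 24 * N ^ 2 := by
      calc m ^ 2 ≤ (K ^ 12 * N) ^ 2 := pow_le_pow_left₀ hm0.le hmN 2
        _ = _ := by ring
    calc (n ^ 2 * m) ^ 2 = (n * m) * (m * n ^ 3) := by ring
      _ ≤ (n * m) * (m * m) := by gcongr
      _ = (n * m) * m ^ 2 := by ring
      _ ≤ (n * m) * (K ^ 24 * N ^ 2) := mul_le_mul_of_nonneg_left j2 (by positivity)
      _ = _ := by ring
  refine i1.trans (i2.trans ?_)
  have hZ : 0 ≤ n * m * N ^ 2 := by positivity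
  calc K ^ 76 * ∑ w ∈ W, x w ^ 3 ≤ K ^ 76 * (K * (n * m * N ^ 2 + (n ^ 2 * m) ^ 2)) :=
        mul_le_mul_of_nonneg_left i3 (by positivity)
    _ ≤ K ^ 76 * (K * (K ^ 24 * (n * m * N ^ 2) + K ^ 24 * (n * m * N ^ 2))) := by
        have e1 : n * m * N ^ 2 ≤ K ^ 24 * (n * m * N ^ 2) :=
          le_mul_of_one_le_left hZ (one_le_pow₀ hK1)
        gcongr
    _ = 2 * (K ^ 101 * (n * m * N ^ 2)) := by ring
    _ ≤ K * (K ^ 101 * (n * m * N ^ 2)) := by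
        have e2 : 0 ≤ K ^ 101 := pow_nonneg hK0.le _
        generalize K ^ 101 = Y at e2
        exact mul_le_mul_of_nonneg_right hK (mul_nonneg e2 hZ)
    _ = _ := by ring

end

end Vale.Agent.P065.H537
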