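import Mathlib

/-!
# P065, upper bound, block [EXTRACT] (helper537): selection of few classes with few common windows

`exists_sub`: deletion lemma.  `select`: from the apexes `V` one can select about `n` apexes such
that most windows are used by at most `K ^ 40` of them.
-/

set_option autoImplicit false

namespace Vale.Agent.P065.H537

open Finset

/-- off-diagonal sum -/
noncomputable def Sod {α : Type*} [DecidableEq α] (c : α → α → ℝ) (A : Finset α) : ℝ :=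
  ∑ a ∈ A, ∑ b ∈ A.erase a, c a b

theorem Sod_nonneg {α : Type*} [DecidableEq α] {c : α → α → ℝ} (hc : ∀ a b, 0 ≤ c a b)
    (A : Finset α) : 0 ≤ Sod c A :=
  sum_nonneg fun _ _ => sum_nonneg fun _ _ => hc _ _

theorem Sod_erase {α : Type*} [DecidableEq α] (c : α → α → ℝ) (A : Finset α) {a : α}
    (ha : a ∈ A) :
    Sod c (A.erase a) = Sod c A - ∑ b ∈ A.erase a, (c a b + c b a) := by
  have h1 : Sod c A = ∑ b ∈ A.erase a, c a b + ∑ x ∈ A.erase a, ∑ b ∈ A.erase x, c x b := by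
    unfold Sod
    rw [← add_sum_erase A _ ha]
  have h2 : ∀ x ∈ A.erase a, ∑ b ∈ A.erase x, c x b =
      c x a + ∑ b ∈ (A.erase a).erase x, c x b := by
    intro x hx
    have hxa : a ∈ A.erase x := mem_erase.2 ⟨(ne_of_mem_erase hx).symm, ha⟩
    rw [← add_sum_erase (A.erase x) _ hxa, erase_right_comm]
  rw [h1, sum_congr rfl h2, sum_add_distrib, sum_add_distrib]
  unfold Sod
  ring

theorem sum_deg {α : Type*} [DecidableEq α] (c : α → α → ℝ) (A : Finset α) :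
    ∑ a ∈ A, ∑ b ∈ A.erase a, (c a b + c b a) = 2 * Sod c A := by
  have h1 : ∑ a ∈ A, ∑ b ∈ A.erase a, c b a = Sod c A := by
    unfold Sod
    have e1 : ∀ f : α → α → ℝ, ∑ a ∈ A, ∑ b ∈ A.erase a, f a b =
        ∑ a ∈ A, ∑ b ∈ A, if b ≠ a then f a b else 0 := by
      intro f
      apply sum_congr rfl
      intro a _
      rw [← sum_filter, filter_ne']
    rw [e1 (fun a b => c b a), e1 c, sum_comm]
    apply sum_congr rfl
    intro a _
    apply sum_congr rfl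
    intro b _
    by_cases h : a = b
    · subst h; simp
    · rw [if_pos h, if_pos (Ne.symm h)]
  simp only [sum_add_distrib]
  rw [h1]
  unfold Sod
  ring

theorem Sod_small {α : Type*} [DecidableEq α] (c : α → α → ℝ) {A : Finset α} (h : #A ≤ 1) :
    Sod c A = 0 := by
  unfold Sod
  apply sum_eq_zero
  intro a ha
  have : A.erase a = ∅ := by
    rw [eq_empty_iff_forall_notMem]
    intro b hb
    exact (ne_of_mem_erase hb) (card_le_one.1 h _ (mem_of_mem_erase hb) _ ha)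
  rw [this, sum_empty]

/-- **deletion lemma** -/
theorem exists_sub {α : Type*} [DecidableEq α] (c : α → α → ℝ) (hc : ∀ a b, 0 ≤ c a b) (k : ℕ) :
    ∀ (j : ℕ) (V : Finset α), #V = k + j →
    ∃ A ⊆ V, #A = k ∧ Sod c A * (#V * (#V - 1 : ℝ)) ≤ Sod c V * (k * (k - 1 : ℝ)) := by
  intro j
  induction j with
  | zero =>
    intro V hV
    refine ⟨V, Subset.refl V, by omega, ?_⟩
    rw [hV]
    simp
  | succ j ih =>
    intro V hV
    have hne : V.Nonempty := by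
      rw [← card_pos]
      omega
    -- an element of large degree
    obtain ⟨a, ha, hmax⟩ : ∃ a ∈ V, 2 * Sod c V ≤ (#V : ℝ) * ∑ b ∈ V.erase a, (c a b + c b a) := by
      by_contra hcon
      push Not at hcon
      have h1 : (#V : ℝ) * ∑ a ∈ V, ∑ b ∈ V.erase a, (c a b + c b a) <
          ∑ a ∈ V, 2 * Sod c V := by
        rw [mul_sum]
        exact sum_lt_sum_of_nonempty hne hcon
      rw [sum_deg, sum_const, nsmul_eq_mul] at h1
      exact lt_irrefl _ h1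
    have hcard : #(V.erase a) = k + j := by
      rw [card_erase_of_mem ha, hV]
      omega
    obtain ⟨A, hA1, hA2, hA3⟩ := ih (V.erase a) hcard
    refine ⟨A, hA1.trans (erase_subset _ _), hA2, ?_⟩
    have hS := Sod_erase c V ha
    have hk1 : (0 : ℝ) ≤ k * (k - 1 : ℝ) := by
      rcases Nat.eq_zero_or_pos k with h | h
      · rw [h]; simp
      · have : (1 : ℝ) ≤ k := by exact_mod_cast h
        exact mul_nonneg (by linarith) (by linarith)
    have hcr : (#(V.erase a) : ℝ) = #V - 1 := by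
      rw [card_erase_of_mem ha, Nat.cast_sub (by omega)]
      simp
    rw [hcr] at hA3
    by_cases h3 : 3 ≤ #V
    · have h3' : (3 : ℝ) ≤ #V := by exact_mod_cast h3
      have hv2 : (0 : ℝ) < (#V : ℝ) - 1 - 1 := by linarith
      have e1 : Sod c (V.erase a) * #V ≤ Sod c V * (#V - 1 - 1) := by
        rw [hS]
        nlinarith
      have e2 : Sod c A * (#V * (#V - 1 : ℝ)) * (#V - 1 - 1) ≤
          Sod c V * (k * (k - 1 : ℝ)) * (#V - 1 - 1) := by
        calc Sod c A * (#V * (#V - 1 : ℝ)) * (#V - 1 - 1)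
            = (Sod c A * ((#V - 1) * (#V - 1 - 1 : ℝ))) * #V := by ring
          _ ≤ (Sod c (V.erase a) * (k * (k - 1 : ℝ))) * #V :=
              mul_le_mul_of_nonneg_right hA3 (by linarith)
          _ = (Sod c (V.erase a) * #V) * (k * (k - 1 : ℝ)) := by ring
          _ ≤ (Sod c V * (#V - 1 - 1)) * (k * (k - 1 : ℝ)) := mul_le_mul_of_nonneg_right e1 hk1
          _ = _ := by ring
      exact le_of_mul_le_mul_right e2 hv2
    · have hA1' : #A ≤ 1 := by omega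
      rw [Sod_small c hA1', zero_mul]
      exact mul_nonneg (Sod_nonneg hc V) hk1

open Classical in
/-- number of common windows -/
noncomputable def cw {α ι : Type*} (W : Finset ι) (Hv : α → ι → Prop) (a b : α) : ℝ :=
  (#{w ∈ W | Hv a w ∧ Hv b w} : ℝ)

open Classical in
theorem sum_cw {α ι : Type*} (W : Finset ι) (Hv : α → ι → Prop) (V : Finset α) :
    ∑ a ∈ V, ∑ b ∈ V, cw W Hv a b = ∑ w ∈ W, (#{a ∈ V | Hv a w} : ℝ) ^ 2 := by
  have h1 : ∀ a ∈ V, ∀ b ∈ V, cw W Hv a b =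
      ∑ w ∈ W, (if Hv a w then (1 : ℝ) else 0) * (if Hv b w then 1 else 0) := by
    intro a _ b _
    unfold cw
    rw [← sum_boole]
    apply sum_congr rfl
    intro w _
    by_cases h1 : Hv a w <;> by_cases h2 : Hv b w <;> simp [h1, h2]
  have h2 : ∑ a ∈ V, ∑ b ∈ V, cw W Hv a b =
      ∑ a ∈ V, ∑ b ∈ V, ∑ w ∈ W, (if Hv a w then (1 : ℝ) else 0) * (if Hv b w then 1 else 0) :=
    sum_congr rfl fun a ha => sum_congr rfl fun b hb => h1 a ha b hb
  rw [h2]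
  have h3 : ∀ a ∈ V, ∑ b ∈ V, ∑ w ∈ W,
      (if Hv a w then (1 : ℝ) else 0) * (if Hv b w then 1 else 0) =
      ∑ w ∈ W, (if Hv a w then (1 : ℝ) else 0) * #{b ∈ V | Hv b w} := by
    intro a _
    rw [sum_comm]
    apply sum_congr rfl
    intro w _
    rw [← mul_sum, sum_boole]
  rw [sum_congr rfl h3, sum_comm]
  apply sum_congr rfl
  intro w _
  rw [← sum_mul, sum_boole, sq]

open Classical in
theorem Sod_cw_le {α ι : Type*} (W : Finset ι) (Hv : α → ι → Prop) (V : Finset α) :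
    Sod (cw W Hv) V ≤ ∑ w ∈ W, (#{a ∈ V | Hv a w} : ℝ) ^ 2 := by
  rw [← sum_cw]
  unfold Sod
  apply sum_le_sum
  intro a _
  apply sum_le_sum_of_subset_of_nonneg (erase_subset _ _)
  intro b _ _
  unfold cw
  positivity

open Classical in
theorem sum_sq_eq {α ι : Type*} (W : Finset ι) (Hv : α → ι → Prop) (A : Finset α) :
    ∑ w ∈ W, (#{a ∈ A | Hv a w} : ℝ) ^ 2 =
      ∑ a ∈ A, (#{w ∈ W | Hv a w} : ℝ) + Sod (cw W Hv) A := by
  rw [← sum_cw]
  unfold Sod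
  rw [← sum_add_distrib]
  apply sum_congr rfl
  intro a ha
  rw [← add_sum_erase A _ ha]
  congr 1
  unfold cw
  simp only [and_self]

open Classical in
/-- **selection of the classes** -/
theorem select {α ι : Type*} (V : Finset α) (W : Finset ι) (Hv : α → ι → Prop) {K n m : ℝ}
    (hK : 2 ≤ K) (hn : 1 ≤ n) (hm : K ^ 5 ≤ m) (h1 : ∀ a ∈ V, (#{w ∈ W | Hv a w} : ℝ) ≤ K * n)
    (h2 : ∀ w ∈ W, (#{a ∈ V | Hv a w} : ℝ) ≤ K ^ 6 * m) (hW : (#W : ℝ) ≤ K * n ^ 2)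
    (hV : n * m ≤ K ^ 4 * #V) :
    ∃ A ⊆ V, n ≤ K ^ 2 * #A ∧ ∃ Bd ⊆ W, (∀ a ∈ A, K ^ 8 * (#{w ∈ Bd | Hv a w} : ℝ) ≤ n) ∧
      ∀ w ∈ W, w ∉ Bd → (#{a ∈ A | Hv a w} : ℝ) ≤ K ^ 40 := by
  have hK0 : 0 < K := by linarith
  have hK1 : 1 ≤ K := by linarith
  have hm0 : 0 < m := lt_of_lt_of_le (by positivity) hm
  set k := ⌊n⌋₊ with hk
  have hkn : (k : ℝ) ≤ n := Nat.floor_le (by linarith)
  have hk1 : 1 ≤ k := Nat.le_floor (by exact_mod_cast hn)
  have hk1' : (1 : ℝ) ≤ k := by exact_mod_cast hk1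
  have hnk : n < k + 1 := Nat.lt_floor_add_one n
  have hn2k : n ≤ 2 * k := by linarith
  -- size of `V`
  have hv : K * n ≤ #V := by
    have e1 : K ^ 4 * (K * n) ≤ K ^ 4 * #V := by
      calc K ^ 4 * (K * n) = n * K ^ 5 := by ring
        _ ≤ n * m := mul_le_mul_of_nonneg_left hm (by linarith)
        _ ≤ _ := hV
    exact le_of_mul_le_mul_left e1 (by positivity)
  have hv2 : (2 : ℝ) ≤ #V := by nlinarith
  have hkv : (k : ℝ) ≤ #V := by nlinarith
  have hkv' : k ≤ #V := by exact_mod_cast hkv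
  obtain ⟨A, hAV, hAk, hAS⟩ := exists_sub (cw W Hv)
    (fun a b => by unfold cw; positivity) k (#V - k) V (by omega)
  -- bound of the sum over `V`
  have hSV : Sod (cw W Hv) V ≤ K ^ 13 * n ^ 2 * m ^ 2 := by
    refine (Sod_cw_le W Hv V).trans ?_
    calc ∑ w ∈ W, (#{a ∈ V | Hv a w} : ℝ) ^ 2 ≤ ∑ w ∈ W, (K ^ 6 * m) ^ 2 :=
          sum_le_sum fun w hw => pow_le_pow_left₀ (by positivity) (h2 w hw) 2
      _ = #W * (K ^ 6 * m) ^ 2 := by rw [sum_const, nsmul_eq_mul]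
      _ ≤ K * n ^ 2 * (K ^ 6 * m) ^ 2 := mul_le_mul_of_nonneg_right hW (by positivity)
      _ = K ^ 13 * n ^ 2 * m ^ 2 := by ring
  have hSA : Sod (cw W Hv) A ≤ K ^ 22 * k ^ 2 := by
    have e1 : (#V : ℝ) ^ 2 ≤ 2 * (#V * (#V - 1)) := by nlinarith
    have e2 : (n * m) ^ 2 ≤ K ^ 8 * (#V : ℝ) ^ 2 := by
      calc (n * m) ^ 2 ≤ (K ^ 4 * #V) ^ 2 := pow_le_pow_left₀ (by positivity) hV 2
        _ = K ^ 8 * (#V : ℝ) ^ 2 := by ring
    have hSA0 : 0 ≤ Sod (cw W Hv) A :=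
      Sod_nonneg (fun a b => by unfold cw; positivity) A
    have e3 : Sod (cw W Hv) A * (n * m) ^ 2 ≤ (K ^ 22 * k ^ 2) * (n * m) ^ 2 := by
      calc Sod (cw W Hv) A * (n * m) ^ 2 ≤ Sod (cw W Hv) A * (K ^ 8 * (#V : ℝ) ^ 2) :=
            mul_le_mul_of_nonneg_left e2 hSA0
        _ ≤ Sod (cw W Hv) A * (K ^ 8 * (2 * (#V * (#V - 1)))) := by
            apply mul_le_mul_of_nonneg_left _ hSA0
            exact mul_le_mul_of_nonneg_left e1 (by positivity)
        _ = 2 * K ^ 8 * (Sod (cw W Hv) A * (#V * (#V - 1))) := by ring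
        _ ≤ 2 * K ^ 8 * (Sod (cw W Hv) V * (k * (k - 1))) :=
            mul_le_mul_of_nonneg_left hAS (by positivity)
        _ ≤ 2 * K ^ 8 * (K ^ 13 * n ^ 2 * m ^ 2 * (k * k)) := by
            apply mul_le_mul_of_nonneg_left _ (by positivity)
            apply mul_le_mul hSV _ (mul_nonneg (by linarith) (by linarith)) (by positivity)
            exact mul_le_mul_of_nonneg_left (by linarith) (by linarith)
        _ = 2 * K ^ 21 * k ^ 2 * (n * m) ^ 2 := by ring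
        _ ≤ K * K ^ 21 * k ^ 2 * (n * m) ^ 2 := by gcongr
        _ = (K ^ 22 * k ^ 2) * (n * m) ^ 2 := by ring
    exact le_of_mul_le_mul_right e3 (by positivity)
  have hM2 : ∑ w ∈ W, (#{a ∈ A | Hv a w} : ℝ) ^ 2 ≤ K ^ 23 * k ^ 2 := by
    rw [sum_sq_eq]
    have e1 : ∑ a ∈ A, (#{w ∈ W | Hv a w} : ℝ) ≤ k * (K * n) := by
      calc ∑ a ∈ A, (#{w ∈ W | Hv a w} : ℝ) ≤ ∑ a ∈ A, K * n :=
            sum_le_sum fun a ha => h1 a (hAV ha)
        _ = k * (K * n) := by rw [sum_const, nsmul_eq_mul, hAk]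
    have e2 : k * (K * n) ≤ 2 * K * k ^ 2 := by
      calc k * (K * n) ≤ k * (K * (2 * k)) := by gcongr
        _ = 2 * K * k ^ 2 := by ring
    have e3 : 2 * K * (k : ℝ) ^ 2 ≤ K ^ 22 * k ^ 2 := by
      apply mul_le_mul_of_nonneg_right _ (by positivity)
      calc 2 * K ≤ K * K := by nlinarith
        _ = K ^ 2 := by ring
        _ ≤ K ^ 22 := pow_le_pow_right₀ hK1 (by norm_num)
    have e4 : 2 * (K ^ 22 * (k : ℝ) ^ 2) ≤ K ^ 23 * k ^ 2 := by
      calc 2 * (K ^ 22 * (k : ℝ) ^ 2) ≤ K * (K ^ 22 * (k : ℝ) ^ 2) :=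
            mul_le_mul_of_nonneg_right hK (by positivity)
        _ = _ := by ring
    linarith
  set Bd := W.filter (fun w => K ^ 40 < (#{a ∈ A | Hv a w} : ℝ)) with hBd
  have hBdW : Bd ⊆ W := filter_subset _ _
  -- few flags in bad windows
  have hfl : K ^ 17 * ∑ a ∈ A, (#{w ∈ Bd | Hv a w} : ℝ) ≤ k ^ 2 := by
    have e0 : ∑ a ∈ A, (#{w ∈ Bd | Hv a w} : ℝ) = ∑ w ∈ Bd, (#{a ∈ A | Hv a w} : ℝ) := by
      simp only [← sum_boole]
      exact sum_comm
    have e1 : K ^ 40 * ∑ w ∈ Bd, (#{a ∈ A | Hv a w} : ℝ) ≤ K ^ 23 * k ^ 2 := by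
      rw [mul_sum]
      calc ∑ w ∈ Bd, K ^ 40 * (#{a ∈ A | Hv a w} : ℝ)
          ≤ ∑ w ∈ Bd, (#{a ∈ A | Hv a w} : ℝ) ^ 2 := by
            apply sum_le_sum
            intro w hw
            rw [sq]
            exact mul_le_mul_of_nonneg_right (mem_filter.1 hw).2.le (by positivity)
        _ ≤ ∑ w ∈ W, (#{a ∈ A | Hv a w} : ℝ) ^ 2 :=
            sum_le_sum_of_subset_of_nonneg hBdW fun _ _ _ => by positivity
        _ ≤ _ := hM2
    have e2 : K ^ 23 * (K ^ 17 * ∑ w ∈ Bd, (#{a ∈ A | Hv a w} : ℝ)) ≤ K ^ 23 * (k : ℝ) ^ 2 := by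
      calc K ^ 23 * (K ^ 17 * ∑ w ∈ Bd, (#{a ∈ A | Hv a w} : ℝ))
          = K ^ 40 * ∑ w ∈ Bd, (#{a ∈ A | Hv a w} : ℝ) := by ring
        _ ≤ _ := e1
    rw [e0]
    exact le_of_mul_le_mul_left e2 (by positivity)
  -- good apexes
  set A1 := A.filter (fun a => K ^ 8 * (#{w ∈ Bd | Hv a w} : ℝ) ≤ n) with hA1
  set A2 := A.filter (fun a => ¬ K ^ 8 * (#{w ∈ Bd | Hv a w} : ℝ) ≤ n) with hA2
  have hcard : #A1 + #A2 = #A := card_filter_add_card_filter_not _
  have hA2c : 2 * (#A2 : ℝ) ≤ k := by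
    have e1 : (#A2 : ℝ) * n ≤ K ^ 8 * ∑ a ∈ A, (#{w ∈ Bd | Hv a w} : ℝ) := by
      calc (#A2 : ℝ) * n = ∑ a ∈ A2, n := by rw [sum_const, nsmul_eq_mul]
        _ ≤ ∑ a ∈ A2, K ^ 8 * (#{w ∈ Bd | Hv a w} : ℝ) :=
            sum_le_sum fun a ha => (not_le.1 (mem_filter.1 ha).2).le
        _ ≤ ∑ a ∈ A, K ^ 8 * (#{w ∈ Bd | Hv a w} : ℝ) :=
            sum_le_sum_of_subset_of_nonneg (filter_subset _ _) fun _ _ _ => by positivity
        _ = _ := by rw [mul_sum]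
    have e2 : K ^ 9 * ((#A2 : ℝ) * n) ≤ k ^ 2 := by
      calc K ^ 9 * ((#A2 : ℝ) * n) ≤ K ^ 9 * (K ^ 8 * ∑ a ∈ A, (#{w ∈ Bd | Hv a w} : ℝ)) :=
            mul_le_mul_of_nonneg_left e1 (by positivity)
        _ = K ^ 17 * ∑ a ∈ A, (#{w ∈ Bd | Hv a w} : ℝ) := by ring
        _ ≤ _ := hfl
    have e3 : 2 * ((#A2 : ℝ) * n) ≤ K ^ 9 * ((#A2 : ℝ) * n) := by
      apply mul_le_mul_of_nonneg_right _ (by positivity)
      calc (2 : ℝ) ≤ K := hK
        _ = K ^ 1 := by ring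
        _ ≤ K ^ 9 := pow_le_pow_right₀ hK1 (by norm_num)
    have e4 : (2 * (#A2 : ℝ)) * n ≤ k * n := by
      calc (2 * (#A2 : ℝ)) * n = 2 * ((#A2 : ℝ) * n) := by ring
        _ ≤ k ^ 2 := e3.trans e2
        _ = k * k := by ring
        _ ≤ k * n := mul_le_mul_of_nonneg_left hkn (by linarith)
    exact le_of_mul_le_mul_right e4 (by linarith)
  refine ⟨A1, (filter_subset _ _).trans hAV, ?_, Bd, hBdW, fun a ha => (mem_filter.1 ha).2, ?_⟩
  · have e1 : (#A1 : ℝ) + #A2 = k := by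
      rw [← hAk]
      exact_mod_cast hcard
    have e2 : (k : ℝ) ≤ 2 * #A1 := by linarith
    have e3 : (4 : ℝ) ≤ K ^ 2 := by nlinarith
    have e4 : (0 : ℝ) ≤ #A1 := Nat.cast_nonneg _
    nlinarith
  · intro w hw hwB
    have e1 : (#{a ∈ A | Hv a w} : ℝ) ≤ K ^ 40 := by
      by_contra hcon
      exact hwB (mem_filter.2 ⟨hw, not_le.1 hcon⟩)
    refine le_trans ?_ e1
    have e2 : #{a ∈ A1 | Hv a w} ≤ #{a ∈ A | Hv a w} :=
      card_le_card (filter_subset_filter _ (filter_subset _ _))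
    exact_mod_cast e2

end Vale.Agent.P065.H537
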