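import Vale.Agent.P065.H537.ExtCells
import Vale.Agent.P065.H537.ExtSel

/-!
# P065, upper bound, block [EXTRACT] (helper537): the chosen classes
-/

set_option autoImplicit false

namespace Vale.Agent.P065.H537

open Finset Vale.Agent.P065.UB

open Classical in
/-- points of the flags of `a` in the window `w` -/
noncomputable def Tf {ι : Type} (G : Finset (ℝ × ℝ)) (E : Finset (ℝ × (ℝ × ℝ)))
    (om : ℝ → ℝ × ℝ → ι) (a : ℝ) (w : ι) : Finset (ℝ × ℝ) :=
  G.filter (fun q => (a, q) ∈ E ∧ om a q = w)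

open Classical in
theorem mem_Tf {ι : Type} {G : Finset (ℝ × ℝ)} {E : Finset (ℝ × (ℝ × ℝ))}
    {om : ℝ → ℝ × ℝ → ι} {a : ℝ} {w : ι} {q : ℝ × ℝ} :
    q ∈ Tf G E om a w ↔ q ∈ G ∧ (a, q) ∈ E ∧ om a q = w := by
  unfold Tf
  exact mem_filter

/-- many flags of `a` in `w` -/
def Hv {ι : Type} (K n m : ℝ) (G : Finset (ℝ × ℝ)) (E : Finset (ℝ × (ℝ × ℝ)))
    (om : ℝ → ℝ × ℝ → ι) (a : ℝ) (w : ι) : Prop := n * m ≤ K ^ 4 * (#(Tf G E om a w) : ℝ)

open Classical in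
/-- flags of `a` in the heavy windows -/
noncomputable def e1f {ι : Type} (K n m : ℝ) (G : Finset (ℝ × ℝ)) (E : Finset (ℝ × (ℝ × ℝ)))
    (om : ℝ → ℝ × ℝ → ι) (W : Finset ι) (a : ℝ) : ℝ :=
  ∑ w ∈ W with Hv K n m G E om a w, (#(Tf G E om a w) : ℝ)

section
variable {K n m δ : ℝ} {ι : Type} {Q0 G : Finset (ℝ × ℝ)} {A0 : Finset ℝ}
  {E : Finset (ℝ × (ℝ × ℝ))} {om : ℝ → ℝ × ℝ → ι} {W : Finset ι} {R : ι → Finset (ℝ × ℝ)}
  {zc : ℝ → ι → ℝ}

theorem PreC.Tf_sub (h : PreC K n m δ Q0 G A0 E om W R zc) (a : ℝ) (w : ι) :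
    Tf G E om a w ⊆ R w := by
  intro q hq
  obtain ⟨_, h2, h3⟩ := mem_Tf.1 hq
  have := h.omR _ h2
  rw [h3] at this
  exact this

theorem PreC.card_Tf (h : PreC K n m δ Q0 G A0 E om W R zc) (a : ℝ) {w : ι} (hw : w ∈ W) :
    (#(Tf G E om a w) : ℝ) ≤ K * n * m := by
  refine le_trans ?_ (h.cR w hw)
  exact_mod_cast card_le_card (h.Tf_sub a w)

open Classical in
theorem Tf_disj (G : Finset (ℝ × ℝ)) (E : Finset (ℝ × (ℝ × ℝ))) (om : ℝ → ℝ × ℝ → ι) (a : ℝ)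
    (S : Finset ι) : (S : Set ι).PairwiseDisjoint (Tf G E om a) := by
  intro w _ w' _ hne
  rw [Function.onFun, disjoint_left]
  intro q h1 h2
  exact hne ((mem_Tf.1 h1).2.2.symm.trans (mem_Tf.1 h2).2.2)

theorem sum_Tf_le (G : Finset (ℝ × ℝ)) (E : Finset (ℝ × (ℝ × ℝ))) (om : ℝ → ℝ × ℝ → ι) (a : ℝ)
    (S : Finset ι) : ∑ w ∈ S, (#(Tf G E om a w) : ℝ) ≤ #G := by
  classical
  have h1 : ∑ w ∈ S, #(Tf G E om a w) = #(S.biUnion (Tf G E om a)) :=
    (card_biUnion (Tf_disj G E om a S)).symm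
  have h2 : S.biUnion (Tf G E om a) ⊆ G := by
    intro q hq
    obtain ⟨w, _, hw⟩ := mem_biUnion.1 hq
    exact (mem_Tf.1 hw).1
  have h3 := card_le_card h2
  rw [← h1] at h3
  exact_mod_cast h3

theorem PreC.card_E (h : PreC K n m δ Q0 G A0 E om W R zc) :
    (#E : ℝ) = ∑ a ∈ A0, ∑ w ∈ W, (#(Tf G E om a w) : ℝ) := by
  classical
  have h1 : #E = ∑ a ∈ A0, #{p ∈ E | p.1 = a} :=
    card_eq_sum_card_fiberwise fun p hp => (h.memE p hp).1
  have h2 : ∀ a ∈ A0, #{p ∈ E | p.1 = a} = ∑ w ∈ W, #(Tf G E om a w) := by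
    intro a _
    have e1 : #{p ∈ E | p.1 = a} = ∑ w ∈ W, #{p ∈ {p ∈ E | p.1 = a} | om p.1 p.2 = w} :=
      card_eq_sum_card_fiberwise fun p hp => h.omW p (mem_filter.1 hp).1
    rw [e1]
    apply sum_congr rfl
    intro w _
    have e2 : ({p ∈ {p ∈ E | p.1 = a} | om p.1 p.2 = w}) =
        (Tf G E om a w).image (fun q => (a, q)) := by
      ext p
      simp only [mem_filter, mem_image, mem_Tf]
      constructor
      · rintro ⟨⟨e3, e4⟩, e5⟩
        subst e4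
        exact ⟨p.2, ⟨(h.memE p e3).2, e3, e5⟩, rfl⟩
      · rintro ⟨q, ⟨e3, e4, e5⟩, rfl⟩
        exact ⟨⟨e4, rfl⟩, e5⟩
    rw [e2, card_image_of_injective]
    intro q q' hqq
    exact (Prod.mk.injEq _ _ _ _ ▸ hqq).2
  rw [h1, sum_congr rfl h2]
  push_cast
  rfl

theorem PreC.Hv_used (h : PreC K n m δ Q0 G A0 E om W R zc) {a : ℝ} {w : ι}
    (hv : Hv K n m G E om a w) : ∃ q ∈ G, (a, q) ∈ E ∧ om a q = w := by
  have hn0 : 0 < n := by linarith [h.n1]
  have hm0 := h.m0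
  have hK0 : 0 < K := by linarith [h.hK]
  have h1 : (0 : ℝ) < #(Tf G E om a w) := by
    by_contra hcon
    have h2 : (#(Tf G E om a w) : ℝ) ≤ 0 := not_lt.1 hcon
    have h3 : n * m ≤ 0 :=
      le_trans hv (mul_nonpos_of_nonneg_of_nonpos (by positivity) h2)
    have h4 : 0 < n * m := by positivity
    linarith
  have h2 : 0 < #(Tf G E om a w) := by exact_mod_cast h1
  obtain ⟨q, hq⟩ := card_pos.1 h2
  obtain ⟨h3, h4, h5⟩ := mem_Tf.1 hq
  exact ⟨q, h3, h4, h5⟩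

open Classical in
theorem PreC.card_Hv (h : PreC K n m δ Q0 G A0 E om W R zc) {a : ℝ} (ha : a ∈ A0) :
    (#{w ∈ W | Hv K n m G E om a w} : ℝ) ≤ K * n := by
  refine le_trans ?_ (h.touch a ha)
  have : #{w ∈ W | Hv K n m G E om a w} ≤ #{w ∈ W | ∃ q ∈ G, (a, q) ∈ E ∧ om a q = w} := by
    apply card_le_card
    intro w hw
    obtain ⟨h1, h2⟩ := mem_filter.1 hw
    exact mem_filter.2 ⟨h1, h.Hv_used h2⟩
  exact_mod_cast this

open Classical in
theorem PreC.light (h : PreC K n m δ Q0 G A0 E om W R zc) {a : ℝ} (ha : a ∈ A0) :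
    K ^ 3 * ∑ w ∈ W with ¬ Hv K n m G E om a w, (#(Tf G E om a w) : ℝ) ≤ n ^ 2 * m := by
  have hn0 : 0 < n := by linarith [h.n1]
  have hm0 := h.m0
  have hK0 : 0 < K := by linarith [h.hK]
  set T := Tf G E om with hT
  set N := W.filter (fun w => ¬ Hv K n m G E om a w) with hN
  set N' := N.filter (fun w => ∃ q ∈ G, (a, q) ∈ E ∧ om a q = w) with hN'
  have e1 : ∑ w ∈ N, (#(T a w) : ℝ) = ∑ w ∈ N', (#(T a w) : ℝ) := by
    symm
    apply sum_filter_of_ne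
    intro w _ hw
    have : #(T a w) ≠ 0 := by
      intro h0
      apply hw
      rw [h0]
      exact Nat.cast_zero
    obtain ⟨q, hq⟩ := card_pos.1 (Nat.pos_of_ne_zero this)
    obtain ⟨h3, h4, h5⟩ := mem_Tf.1 hq
    exact ⟨q, h3, h4, h5⟩
  have hN'c : (#N' : ℝ) ≤ K * n := by
    refine le_trans ?_ (h.touch a ha)
    exact_mod_cast card_le_card (filter_subset_filter _ (filter_subset _ _))
  have e2 : K ^ 4 * ∑ w ∈ N, (#(T a w) : ℝ) ≤ K * n * (n * m) := by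
    rw [e1, mul_sum]
    calc ∑ w ∈ N', K ^ 4 * (#(T a w) : ℝ) ≤ ∑ w ∈ N', n * m := by
          apply sum_le_sum
          intro w hw
          exact (not_le.1 (mem_filter.1 (mem_filter.1 hw).1).2).le
      _ = #N' * (n * m) := by rw [sum_const, nsmul_eq_mul]
      _ ≤ K * n * (n * m) := mul_le_mul_of_nonneg_right hN'c (by positivity)
  have e3 : K * (K ^ 3 * ∑ w ∈ N, (#(T a w) : ℝ)) ≤ K * (n ^ 2 * m) := by
    calc K * (K ^ 3 * ∑ w ∈ N, (#(T a w) : ℝ)) = K ^ 4 * ∑ w ∈ N, (#(T a w) : ℝ) := by ring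
      _ ≤ _ := e2
      _ = _ := by ring
  exact le_of_mul_le_mul_left e3 hK0

theorem PreC.e1_le (h : PreC K n m δ Q0 G A0 E om W R zc) (a : ℝ) :
    e1f K n m G E om W a ≤ K * n ^ 2 * m := by
  refine (sum_Tf_le G E om a _).trans (le_trans ?_ h.cQ)
  exact_mod_cast card_le_card h.subG

/-- the heavy windows carry half of the flags -/
theorem PreC.mass (h : PreC K n m δ Q0 G A0 E om W R zc) :
    n ^ 3 * m ^ 2 ≤ 2 * K * ∑ a ∈ A0, e1f K n m G E om W a := by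
  classical
  have hK := h.hK
  have hK0 : 0 < K := by linarith
  have hn0 : 0 < n := by linarith [h.n1]
  have hm0 := h.m0
  set L := ∑ a ∈ A0, ∑ w ∈ W with ¬ Hv K n m G E om a w, (#(Tf G E om a w) : ℝ) with hL
  have i1 : (#E : ℝ) = ∑ a ∈ A0, e1f K n m G E om W a + L := by
    rw [h.card_E, hL, ← sum_add_distrib]
    apply sum_congr rfl
    intro a _
    unfold e1f
    exact (sum_filter_add_sum_filter_not W _ _).symm
  have i2 : K ^ 3 * L ≤ K * n * m * (n ^ 2 * m) := by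
    rw [hL, mul_sum]
    calc ∑ a ∈ A0, K ^ 3 * ∑ w ∈ W with ¬ Hv K n m G E om a w, (#(Tf G E om a w) : ℝ)
        ≤ ∑ a ∈ A0, n ^ 2 * m := sum_le_sum fun a ha => h.light ha
      _ = #A0 * (n ^ 2 * m) := by rw [sum_const, nsmul_eq_mul]
      _ ≤ _ := mul_le_mul_of_nonneg_right h.cA (by positivity)
  have hL0 : 0 ≤ L := sum_nonneg fun _ _ => sum_nonneg fun _ _ => Nat.cast_nonneg _
  have i5 := h.cE
  rw [i1, mul_add] at i5
  generalize ∑ a ∈ A0, e1f K n m G E om W a = X at i5 ⊢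
  clear_value L
  clear i1
  have i3 : K ^ 2 * L ≤ n ^ 3 * m ^ 2 := by
    have : K * (K ^ 2 * L) ≤ K * (n ^ 3 * m ^ 2) := by
      calc K * (K ^ 2 * L) = K ^ 3 * L := by ring
        _ ≤ _ := i2
        _ = _ := by ring
    exact le_of_mul_le_mul_left this hK0
  have i4 : 2 * (K * L) ≤ n ^ 3 * m ^ 2 := by
    refine le_trans ?_ i3
    have : K * L * 2 ≤ K * L * K := mul_le_mul_of_nonneg_left hK (by positivity)
    calc 2 * (K * L) = K * L * 2 := by ring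
      _ ≤ K * L * K := this
      _ = K ^ 2 * L := by ring
  linarith

open Classical in
/-- many classes with full mass -/
theorem PreC.card_V (h : PreC K n m δ Q0 G A0 E om W R zc) :
    n * m ≤ K ^ 4 * (#{a ∈ A0 | n ^ 2 * m ≤ 4 * K ^ 2 * e1f K n m G E om W a} : ℝ) := by
  have hK := h.hK
  have hK0 : 0 < K := by linarith
  have hn0 : 0 < n := by linarith [h.n1]
  have hm0 := h.m0
  have hmass := h.mass
  set e1 := e1f K n m G E om W with he1
  set V := A0.filter (fun a => n ^ 2 * m ≤ 4 * K ^ 2 * e1 a) with hV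
  set L := ∑ a ∈ A0 with ¬ (n ^ 2 * m ≤ 4 * K ^ 2 * e1 a), e1 a with hL
  have i1 : ∑ a ∈ A0, e1 a = ∑ a ∈ V, e1 a + L := (sum_filter_add_sum_filter_not A0 _ _).symm
  have i2 : 4 * K ^ 2 * L ≤ K * n * m * (n ^ 2 * m) := by
    rw [hL, mul_sum]
    calc ∑ a ∈ A0 with ¬ (n ^ 2 * m ≤ 4 * K ^ 2 * e1 a), 4 * K ^ 2 * e1 a
        ≤ ∑ a ∈ A0 with ¬ (n ^ 2 * m ≤ 4 * K ^ 2 * e1 a), n ^ 2 * m :=
          sum_le_sum fun a ha => (not_le.1 (mem_filter.1 ha).2).le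
      _ = #(A0.filter (fun a => ¬ (n ^ 2 * m ≤ 4 * K ^ 2 * e1 a))) * (n ^ 2 * m) := by
          rw [sum_const, nsmul_eq_mul]
      _ ≤ #A0 * (n ^ 2 * m) := by
          apply mul_le_mul_of_nonneg_right _ (by positivity)
          exact_mod_cast card_filter_le _ _
      _ ≤ _ := mul_le_mul_of_nonneg_right h.cA (by positivity)
  have i3 : 4 * (K * L) ≤ n ^ 3 * m ^ 2 := by
    have : K * (4 * (K * L)) ≤ K * (n ^ 3 * m ^ 2) := by
      calc K * (4 * (K * L)) = 4 * K ^ 2 * L := by ring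
        _ ≤ _ := i2
        _ = _ := by ring
    exact le_of_mul_le_mul_left this hK0
  have i4 : ∑ a ∈ V, e1 a ≤ #V * (K * n ^ 2 * m) := by
    calc ∑ a ∈ V, e1 a ≤ ∑ a ∈ V, K * n ^ 2 * m := sum_le_sum fun a _ => h.e1_le a
      _ = _ := by rw [sum_const, nsmul_eq_mul]
  have i5 : n ^ 3 * m ^ 2 ≤ 4 * K * ∑ a ∈ V, e1 a := by
    rw [i1, mul_add] at hmass
    linarith
  have i6 : (n * m) * (n ^ 2 * m) ≤ (K ^ 4 * #V) * (n ^ 2 * m) := by
    calc (n * m) * (n ^ 2 * m) = n ^ 3 * m ^ 2 := by ring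
      _ ≤ 4 * K * ∑ a ∈ V, e1 a := i5
      _ ≤ 4 * K * (#V * (K * n ^ 2 * m)) := mul_le_mul_of_nonneg_left i4 (by positivity)
      _ = (2 * 2) * (K ^ 2 * (#V * (n ^ 2 * m))) := by ring
      _ ≤ (K * K) * (K ^ 2 * (#V * (n ^ 2 * m))) := by
          apply mul_le_mul_of_nonneg_right _ (by positivity)
          exact mul_le_mul hK hK (by norm_num) hK0.le
      _ = _ := by ring
  exact le_of_mul_le_mul_right i6 (by positivity)

open Classical in
/-- few classes in a window -/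
theorem PreC.deg (h : PreC K n m δ Q0 G A0 E om W R zc) {V : Finset ℝ} (hVA : V ⊆ A0) {w : ι}
    (hw : w ∈ W) : (#{a ∈ V | Hv K n m G E om a w} : ℝ) ≤ K ^ 6 * m := by
  have hK0 : 0 < K := by linarith [h.hK]
  have hn0 : 0 < n := by linarith [h.n1]
  have hm0 := h.m0
  set T := Tf G E om with hT
  have i1 : (#{a ∈ V | Hv K n m G E om a w} : ℝ) * (n * m) ≤
      K ^ 4 * ∑ a ∈ A0, (#(T a w) : ℝ) := by
    calc (#{a ∈ V | Hv K n m G E om a w} : ℝ) * (n * m)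
        = ∑ a ∈ V with Hv K n m G E om a w, n * m := by rw [sum_const, nsmul_eq_mul]
      _ ≤ ∑ a ∈ V with Hv K n m G E om a w, K ^ 4 * (#(T a w) : ℝ) :=
          sum_le_sum fun a ha => (mem_filter.1 ha).2
      _ ≤ ∑ a ∈ A0, K ^ 4 * (#(T a w) : ℝ) :=
          sum_le_sum_of_subset_of_nonneg ((filter_subset _ _).trans hVA)
            fun _ _ _ => by positivity
      _ = _ := by rw [mul_sum]
  set GR := G.filter (fun q => q ∈ R w) with hGR
  have i2 : ∑ a ∈ A0, (#(T a w) : ℝ) ≤ (K * n * m) * (K * m) := by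
    have j1 : ∑ a ∈ A0, (#(T a w) : ℝ) =
        ∑ q ∈ GR, (#{a ∈ A0 | (a, q) ∈ E ∧ om a q = w} : ℝ) := by
      have j2 : ∀ a ∈ A0, (#(T a w) : ℝ) =
          ∑ q ∈ GR, if (a, q) ∈ E ∧ om a q = w then (1 : ℝ) else 0 := by
        intro a _
        rw [sum_boole]
        congr 2
        ext q
        rw [hT, mem_Tf, mem_filter, hGR, mem_filter]
        constructor
        · rintro ⟨h3, h4, h5⟩
          exact ⟨⟨h3, h.Tf_sub a w (mem_Tf.2 ⟨h3, h4, h5⟩)⟩, h4, h5⟩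
        · rintro ⟨⟨h3, _⟩, h4, h5⟩
          exact ⟨h3, h4, h5⟩
      rw [sum_congr rfl j2, sum_comm]
      apply sum_congr rfl
      intro q _
      rw [sum_boole]
    rw [j1]
    calc ∑ q ∈ GR, (#{a ∈ A0 | (a, q) ∈ E ∧ om a q = w} : ℝ)
        ≤ ∑ q ∈ GR, K * m := sum_le_sum fun q hq => h.flag q (mem_filter.1 hq).1 w hw
      _ = #GR * (K * m) := by rw [sum_const, nsmul_eq_mul]
      _ ≤ #(R w) * (K * m) := by
          apply mul_le_mul_of_nonneg_right _ (by positivity)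
          exact_mod_cast card_le_card fun q hq => (mem_filter.1 hq).2
      _ ≤ _ := mul_le_mul_of_nonneg_right (h.cR w hw) (by positivity)
  have i3 : (#{a ∈ V | Hv K n m G E om a w} : ℝ) * (n * m) ≤ (K ^ 6 * m) * (n * m) := by
    calc (#{a ∈ V | Hv K n m G E om a w} : ℝ) * (n * m) ≤ K ^ 4 * ∑ a ∈ A0, (#(T a w) : ℝ) := i1
      _ ≤ K ^ 4 * ((K * n * m) * (K * m)) := mul_le_mul_of_nonneg_left i2 (by positivity)
      _ = _ := by ring
  exact le_of_mul_le_mul_right i3 (by positivity)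

open Classical in
/-- the windows which are heavy and not bad carry the mass -/
theorem PreC.good_mass (h : PreC K n m δ Q0 G A0 E om W R zc) {a : ℝ} {Bd : Finset ι}
    (hBdW : Bd ⊆ W) (i1 : n ^ 2 * m ≤ 4 * K ^ 2 * e1f K n m G E om W a)
    (hBd1 : K ^ 8 * (#{w ∈ Bd | Hv K n m G E om a w} : ℝ) ≤ n) :
    n ^ 2 * m ≤ K ^ 5 * ∑ w ∈ W with (Hv K n m G E om a w ∧ w ∉ Bd), (#(Tf G E om a w) : ℝ) := by
  have hK := h.hK
  have hK0 : 0 < K := by linarith
  have hK1 : 1 ≤ K := by linarith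
  have hn0 : 0 < n := by linarith [h.n1]
  have hm0 := h.m0
  set L1 := ∑ w ∈ W with (Hv K n m G E om a w ∧ w ∉ Bd), (#(Tf G E om a w) : ℝ) with hL1
  set L2 := ∑ w ∈ Bd with Hv K n m G E om a w, (#(Tf G E om a w) : ℝ) with hL2
  have i2 : e1f K n m G E om W a = L1 + L2 := by
    have j1 : e1f K n m G E om W a =
        ∑ w ∈ (W.filter (fun w => Hv K n m G E om a w)).filter (fun w => w ∉ Bd),
        (#(Tf G E om a w) : ℝ) +
        ∑ w ∈ (W.filter (fun w => Hv K n m G E om a w)).filter (fun w => ¬ w ∉ Bd),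
        (#(Tf G E om a w) : ℝ) := (sum_filter_add_sum_filter_not _ _ _).symm
    rw [j1, filter_filter]
    congr 1
    apply sum_congr _ fun _ _ => rfl
    ext w
    simp only [mem_filter, not_not]
    constructor
    · rintro ⟨⟨_, j2⟩, j3⟩
      exact ⟨j3, j2⟩
    · rintro ⟨j2, j3⟩
      exact ⟨⟨hBdW j2, j3⟩, j2⟩
  have i3 : K ^ 7 * L2 ≤ n ^ 2 * m := by
    have j1 : L2 ≤ (#{w ∈ Bd | Hv K n m G E om a w} : ℝ) * (K * n * m) := by
      calc L2 ≤ ∑ w ∈ Bd with Hv K n m G E om a w, K * n * m :=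
            sum_le_sum fun w hw => h.card_Tf a (hBdW (mem_filter.1 hw).1)
        _ = _ := by rw [sum_const, nsmul_eq_mul]
    calc K ^ 7 * L2 ≤ K ^ 7 * ((#{w ∈ Bd | Hv K n m G E om a w} : ℝ) * (K * n * m)) :=
          mul_le_mul_of_nonneg_left j1 (by positivity)
      _ = (K ^ 8 * (#{w ∈ Bd | Hv K n m G E om a w} : ℝ)) * (n * m) := by ring
      _ ≤ n * (n * m) := mul_le_mul_of_nonneg_right hBd1 (by positivity)
      _ = _ := by ring
  have hL20 : 0 ≤ L2 := sum_nonneg fun _ _ => Nat.cast_nonneg _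
  have hL10 : 0 ≤ L1 := sum_nonneg fun _ _ => Nat.cast_nonneg _
  rw [i2] at i1
  clear_value L1 L2
  clear i2 hBd1
  have i4 : n ^ 2 * m ≤ K ^ 4 * (L1 + L2) := by
    refine i1.trans ?_
    calc 4 * K ^ 2 * (L1 + L2) = (2 * 2) * (K ^ 2 * (L1 + L2)) := by ring
      _ ≤ (K * K) * (K ^ 2 * (L1 + L2)) := by
          apply mul_le_mul_of_nonneg_right _ (by positivity)
          exact mul_le_mul hK hK (by norm_num) hK0.le
      _ = _ := by ring
  have i5 : 2 * (K ^ 4 * L2) ≤ n ^ 2 * m := by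
    refine le_trans ?_ i3
    calc 2 * (K ^ 4 * L2) ≤ K ^ 3 * (K ^ 4 * L2) := by
          apply mul_le_mul_of_nonneg_right _ (by positivity)
          calc (2 : ℝ) ≤ K := hK
            _ = K ^ 1 := (pow_one K).symm
            _ ≤ K ^ 3 := pow_le_pow_right₀ hK1 (by norm_num)
      _ = _ := by ring
  have i6 : n ^ 2 * m ≤ 2 * (K ^ 4 * L1) := by
    rw [mul_add] at i4
    linarith
  calc n ^ 2 * m ≤ 2 * (K ^ 4 * L1) := i6
    _ ≤ K * (K ^ 4 * L1) := mul_le_mul_of_nonneg_right hK (by positivity)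
    _ = K ^ 5 * L1 := by ring

open Classical in
/-- **the chosen classes** -/
theorem PreC.exists_classes (h : PreC K n m δ Q0 G A0 E om W R zc) (hn : K ^ 5 ≤ n) :
    ∃ (A : Finset ℝ) (Wg : ℝ → Finset ι), A ⊆ A0 ∧ n ≤ K ^ 2 * #A ∧ (∀ a ∈ A, Wg a ⊆ W) ∧
      (∀ a ∈ A, (#(Wg a) : ℝ) ≤ K * n) ∧
      (∀ a ∈ A, n ^ 2 * m ≤ K ^ 5 * ∑ w ∈ Wg a, (#(Tf G E om a w) : ℝ)) ∧
      ∀ w ∈ W, (#{a ∈ A | w ∈ Wg a} : ℝ) ≤ K ^ 40 := by
  have hK := h.hK
  have hn1 := h.n1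
  have hVA : A0.filter (fun a => n ^ 2 * m ≤ 4 * K ^ 2 * e1f K n m G E om W a) ⊆ A0 :=
    filter_subset _ _
  have hm5 : K ^ 5 ≤ m := by
    refine hn.trans (le_trans ?_ h.nm)
    calc n = n ^ 1 := (pow_one n).symm
      _ ≤ n ^ 4 := pow_le_pow_right₀ hn1 (by norm_num)
  obtain ⟨A, hAV, hAn, Bd, hBdW, hBd1, hBd2⟩ := select _ W (Hv K n m G E om) hK hn1 hm5
    (fun a ha => h.card_Hv (hVA ha)) (fun w hw => h.deg hVA hw) h.cW h.card_V
  refine ⟨A, fun a => W.filter (fun w => Hv K n m G E om a w ∧ w ∉ Bd), hAV.trans hVA, hAn,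
    fun a _ => filter_subset _ _, ?_, ?_, ?_⟩
  · intro a ha
    refine le_trans ?_ (h.card_Hv (hVA (hAV ha)))
    have : #(W.filter (fun w => Hv K n m G E om a w ∧ w ∉ Bd)) ≤
        #{w ∈ W | Hv K n m G E om a w} := by
      apply card_le_card
      intro w hw
      obtain ⟨h1, h2, _⟩ := mem_filter.1 hw
      exact mem_filter.2 ⟨h1, h2⟩
    exact_mod_cast this
  · intro a ha
    exact h.good_mass hBdW (mem_filter.1 (hAV ha)).2 (hBd1 a ha)
  · intro w hw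
    by_cases hwB : w ∈ Bd
    · have : #{a ∈ A | w ∈ W.filter (fun w => Hv K n m G E om a w ∧ w ∉ Bd)} = 0 := by
        rw [card_eq_zero, filter_eq_empty_iff]
        intro a _ hcon
        exact (mem_filter.1 hcon).2.2 hwB
      rw [this]
      have hK0 : 0 < K := by linarith
      push_cast
      positivity
    · refine le_trans ?_ (hBd2 w hw hwB)
      have : #{a ∈ A | w ∈ W.filter (fun w => Hv K n m G E om a w ∧ w ∉ Bd)} ≤
          #{a ∈ A | Hv K n m G E om a w} := by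
        apply card_le_card
        intro a ha
        obtain ⟨h1, h2⟩ := mem_filter.1 ha
        exact mem_filter.2 ⟨h1, (mem_filter.1 h2).2.1⟩
      exact_mod_cast this

end

end Vale.Agent.P065.H537
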