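import Vale.Agent.P065.H537.PreDefs

/-!
# P065, upper bound, block [EXTRACT] (helper537): nets, injective labels, cells of one class
-/

set_option autoImplicit false

namespace Vale.Agent.P065.H537

open Finset Vale.Agent.P065.UB
open Vale.Agent.P118.OF (Cov Sep)

/-- maximal separated subset with a rounding map -/
theorem exists_net (X : Finset ℝ) {δ : ℝ} :
    ∃ (B : Finset ℝ) (b : ℝ → ℝ), B ⊆ X ∧ Sep δ B ∧ ∀ x ∈ X, b x ∈ B ∧ |x - b x| < δ ∨ δ ≤ 0 := by
  classical
  by_cases hδ : δ ≤ 0
  · exact ⟨∅, id, empty_subset _, fun x hx => absurd hx (notMem_empty x), fun x _ => Or.inr hδ⟩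
  have hδ' : 0 < δ := not_le.1 hδ
  have main : ∃ B ⊆ X, Sep δ B ∧ ∀ x ∈ X, ∃ y ∈ B, |x - y| < δ := by
    induction X using Finset.induction_on with
    | empty => exact ⟨∅, Subset.refl _, fun x hx => absurd hx (notMem_empty x), fun x hx =>
        absurd hx (notMem_empty x)⟩
    | insert x X _ ih =>
      obtain ⟨B, hB1, hB2, hB3⟩ := ih
      by_cases hx : ∃ y ∈ B, |x - y| < δ
      · refine ⟨B, hB1.trans (subset_insert _ _), hB2, ?_⟩
        intro z hz
        rcases mem_insert.1 hz with rfl | hz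
        · exact hx
        · exact hB3 z hz
      · push Not at hx
        refine ⟨insert x B, insert_subset_insert x hB1, ?_, ?_⟩
        · intro y hy z hz hyz
          rcases mem_insert.1 hy with h1 | h1
          · rcases mem_insert.1 hz with h2 | h2
            · exact absurd (h1.trans h2.symm) hyz
            · rw [Real.dist_eq, h1]
              exact hx z h2
          · rcases mem_insert.1 hz with h2 | h2
            · rw [Real.dist_eq, abs_sub_comm, h2]
              exact hx y h1
            · exact hB2 y h1 z h2 hyz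
        · intro z hz
          rcases mem_insert.1 hz with rfl | hz
          · exact ⟨z, mem_insert_self _ _, by simpa using hδ'⟩
          · obtain ⟨y, hy, h⟩ := hB3 z hz
            exact ⟨y, mem_insert_of_mem hy, h⟩
  obtain ⟨B, hB1, hB2, hB3⟩ := main
  choose! b hb1 hb2 using hB3
  exact ⟨B, b, hB1, hB2, fun x hx => Or.inl ⟨hb1 x hx, hb2 x hx⟩⟩

/-- `δ`-separated points have different floors -/
theorem floor_inj {B : Finset ℝ} {δ : ℝ} (hδ : 0 < δ) (hB : Sep δ B) {x y : ℝ} (hx : x ∈ B)
    (hy : y ∈ B) (h : ⌊x / δ⌋ = ⌊y / δ⌋) : x = y := by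
  by_contra hne
  have h1 := hB x hx y hy hne
  rw [Real.dist_eq] at h1
  have h2 := Int.abs_sub_lt_one_of_floor_eq_floor h
  have h3 : |x / δ - y / δ| = |x - y| / δ := by
    rw [← sub_div, abs_div, abs_of_pos hδ]
  rw [h3, div_lt_one hδ] at h2
  linarith

theorem card_le_floors {B X : Finset ℝ} {δ : ℝ} (hδ : 0 < δ) (hB : Sep δ B) (hBX : B ⊆ X) :
    #B ≤ #(X.image fun x => ⌊x / δ⌋) := by
  have h1 : #B = #(B.image fun x => ⌊x / δ⌋) := by
    symm
    apply card_image_of_injOn
    intro x hx y hy h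
    exact floor_inj hδ hB (mem_coe.1 hx) (mem_coe.1 hy) h
  rw [h1]
  exact card_le_card (image_subset_image hBX)

open Classical in
/-- few separated points in an interval -/
theorem card_sep_interval {B : Finset ℝ} {δ D c : ℝ} (hδ : 0 < δ) (hB : Sep δ B) (hD : 0 ≤ D) :
    (#{x ∈ B | |x - c| ≤ D * δ} : ℝ) ≤ 2 * D + 2 := by
  set B' := B.filter (fun x => |x - c| ≤ D * δ) with hB'
  have h1 : #B' = #(B'.image fun x => ⌊x / δ⌋) := by
    symm
    apply card_image_of_injOn
    intro x hx y hy h
    exact floor_inj hδ hB (mem_filter.1 (mem_coe.1 hx)).1 (mem_filter.1 (mem_coe.1 hy)).1 h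
  have h2 : (B'.image fun x => ⌊x / δ⌋) ⊆ Icc ⌊c / δ - D⌋ ⌊c / δ + D⌋ := by
    intro i hi
    obtain ⟨x, hx, rfl⟩ := mem_image.1 hi
    have h3 := abs_le.1 (mem_filter.1 hx).2
    rw [mem_Icc]
    constructor
    · apply Int.floor_le_floor
      rw [← sub_nonneg]
      have : x / δ - (c / δ - D) = (x - c + D * δ) / δ := by
        field_simp
        ring
      rw [this]
      exact div_nonneg (by linarith) hδ.le
    · apply Int.floor_le_floor
      rw [← sub_nonneg]
      have : c / δ + D - x / δ = (D * δ - (x - c)) / δ := by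
        field_simp
        ring
      rw [this]
      exact div_nonneg (by linarith) hδ.le
  have h3 : (#(Icc ⌊c / δ - D⌋ ⌊c / δ + D⌋) : ℝ) ≤ 2 * D + 2 := by
    rw [Int.card_Icc]
    have h4 : (⌊c / δ - D⌋ : ℤ) ≤ ⌊c / δ + D⌋ + 1 := by
      have : ⌊c / δ - D⌋ ≤ ⌊c / δ + D⌋ := Int.floor_le_floor (by linarith)
      omega
    have h5 : (((⌊c / δ + D⌋ + 1 - ⌊c / δ - D⌋).toNat : ℤ) : ℝ) =
        (⌊c / δ + D⌋ + 1 - ⌊c / δ - D⌋ : ℤ) := by
      rw [Int.toNat_of_nonneg (by omega)]
    have h6 := Int.floor_le (c / δ + D)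
    have h7 := Int.lt_floor_add_one (c / δ - D)
    have h8 : (((⌊c / δ + D⌋ + 1 - ⌊c / δ - D⌋).toNat : ℕ) : ℝ) =
        (((⌊c / δ + D⌋ + 1 - ⌊c / δ - D⌋).toNat : ℤ) : ℝ) := by push_cast; rfl
    rw [h8, h5]
    push_cast
    linarith
  rw [h1]
  calc (#(B'.image fun x => ⌊x / δ⌋) : ℝ) ≤ #(Icc ⌊c / δ - D⌋ ⌊c / δ + D⌋) := by
        exact_mod_cast card_le_card h2
    _ ≤ _ := h3

/-- distinct labels near given reals -/
theorem exists_inj_near {ι : Type} (s : Finset ι) (z : ι → ℝ) {δ : ℝ} (hδ : 0 < δ) :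
    ∃ z' : ι → ℝ, Set.InjOn z' (s : Set ι) ∧ ∀ w ∈ s, |z' w - z w| ≤ δ := by
  classical
  induction s using Finset.induction_on with
  | empty => exact ⟨z, by simp, fun w hw => absurd hw (notMem_empty w)⟩
  | insert w s hw ih =>
    obtain ⟨z', h1, h2⟩ := ih
    have hinf : (Set.Icc (z w) (z w + δ)).Infinite := Set.Icc_infinite (by linarith)
    obtain ⟨x, hx, hxs⟩ := hinf.exists_notMem_finset (s.image z')
    refine ⟨fun v => if v = w then x else z' v, ?_, ?_⟩
    · intro a ha b hb hab
      have ha' := mem_insert.1 (mem_coe.1 ha)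
      have hb' := mem_insert.1 (mem_coe.1 hb)
      simp only at hab
      by_cases haw : a = w <;> by_cases hbw : b = w
      · rw [haw, hbw]
      · rw [if_pos haw, if_neg hbw] at hab
        exfalso
        apply hxs
        rw [hab]
        exact mem_image_of_mem _ (hb'.resolve_left hbw)
      · rw [if_neg haw, if_pos hbw] at hab
        exfalso
        apply hxs
        rw [← hab]
        exact mem_image_of_mem _ (ha'.resolve_left haw)
      · rw [if_neg haw, if_neg hbw] at hab
        exact h1 (mem_coe.2 (ha'.resolve_left haw)) (mem_coe.2 (hb'.resolve_left hbw)) hab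
    · intro v hv
      simp only
      by_cases hvw : v = w
      · rw [if_pos hvw, hvw, abs_le]
        constructor <;> linarith [hx.1, hx.2]
      · rw [if_neg hvw]
        exact h2 v ((mem_insert.1 hv).resolve_left hvw)

end Vale.Agent.P065.H537
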