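import Vale.Agent.P065.H537.ExtFull

/-!
# P065, upper bound, block [EXTRACT] (helper537)

`stExtract : StExtract` and `stPreKill : StPreKill`.
-/

set_option autoImplicit false

namespace Vale.Agent.P065.H537

open Finset Vale.Agent.P065.UB
open Vale.Agent.P118.OF (Cov Sep)

section
variable {K n m δ : ℝ} {ι : Type} {Q0 G : Finset (ℝ × ℝ)} {A0 : Finset ℝ}
  {E : Finset (ℝ × (ℝ × ℝ))} {om : ℝ → ℝ × ℝ → ι} {W : Finset ι} {R : ι → Finset (ℝ × ℝ)}
  {zc : ℝ → ι → ℝ} {B H : Finset ℝ} {κ : ℝ × ℝ → ℝ × ℝ}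

open Classical in
/-- all heavy cells -/
noncomputable def Yc (K m : ℝ) (G : Finset (ℝ × ℝ)) (B H : Finset ℝ) (κ : ℝ × ℝ → ℝ × ℝ) :
    Finset (ℝ × ℝ) :=
  (B ×ˢ H).filter (fun p => m ≤ K ^ 12 * #{q ∈ G | κ q = p})

open Classical in
theorem Cc_sub_Yc (hN : Net K n δ G B H κ) {T : Finset (ℝ × ℝ)} (hTG : T ⊆ G) :
    Cc K m κ T ⊆ Yc K m G B H κ := by
  intro p hp
  obtain ⟨⟨q, hq, hqp⟩, h2⟩ := mem_Cc.1 hp
  obtain ⟨h3, h4, _, _⟩ := hN.kap q (hTG hq)
  rw [hqp] at h3 h4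
  refine mem_filter.2 ⟨mem_product.2 ⟨h3, h4⟩, h2.trans ?_⟩
  apply mul_le_mul_of_nonneg_left _ (by positivity)
  exact_mod_cast card_le_card (filter_subset_filter _ hTG)

open Classical in
/-- the dimension condition for the cells -/
theorem PreC.dim_cells (h : PreC K n m δ Q0 G A0 E om W R zc) (hN : Net K n δ G B H κ)
    {c c₀ e q : ℕ} (hce : c * (c₀ + 1) ≤ e) (hc : 12 ≤ c) (hd : Dim q e K n m δ G) (x y r : ℝ)
    (h1 : δ ≤ r) (h2 : r ≤ 1) : n ^ (q + 1) * δ ^ q ≤ (K ^ c) ^ c₀ * r ^ q ∨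
    (K ^ c) ^ c₀ * (#{p ∈ Yc K m G B H κ | |p.1 - x| ≤ r ∧ |p.2 - y| ≤ r} : ℝ) ≤ n ^ 2 := by
  have hK := h.hK
  have hK0 : 0 < K := by linarith
  have hK1 : 1 ≤ K := by linarith
  have hm0 := h.m0
  have hr0 : 0 < r := lt_of_lt_of_le h.δ0 h1
  rcases hd x y r h1 h2 with h3 | h3
  · left
    refine h3.trans ?_
    exact le_mul_of_one_le_left (by positivity) (one_le_pow₀ (one_le_pow₀ hK1))
  · right
    set P := (Yc K m G B H κ).filter (fun p => |p.1 - x| ≤ r ∧ |p.2 - y| ≤ r) with hP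
    have i1 : m * #P ≤ K ^ 12 * #{p ∈ G | |p.1 - x| ≤ 2 * r ∧ |p.2 - y| ≤ 2 * r} := by
      have j1 : m * #P ≤ ∑ p ∈ P, K ^ 12 * (#{q ∈ G | κ q = p} : ℝ) := by
        calc m * #P = ∑ p ∈ P, m := by rw [sum_const, nsmul_eq_mul, mul_comm]
          _ ≤ _ := sum_le_sum fun p hp => (mem_filter.1 (mem_filter.1 hp).1).2
      refine j1.trans ?_
      rw [← mul_sum]
      apply mul_le_mul_of_nonneg_left _ (by positivity)
      have j2 : ∑ p ∈ P, #{q ∈ G | κ q = p} = #{q ∈ G | κ q ∈ P} := card_by_cells κ G P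
      have j3 : ({q ∈ G | κ q ∈ P}) ⊆ {p ∈ G | |p.1 - x| ≤ 2 * r ∧ |p.2 - y| ≤ 2 * r} := by
        intro q hq
        obtain ⟨h4, h5⟩ := mem_filter.1 hq
        obtain ⟨_, h6, h7⟩ := mem_filter.1 h5
        obtain ⟨_, _, h8, h9⟩ := hN.kap q h4
        refine mem_filter.2 ⟨h4, ?_, ?_⟩
        · have e4 := abs_le.1 h6
          have e5 := abs_lt.1 h8
          rw [abs_le]
          constructor <;> linarith
        · have e4 := abs_le.1 h7
          have e5 := abs_lt.1 h9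
          rw [abs_le]
          constructor <;> linarith
      calc ∑ p ∈ P, (#{q ∈ G | κ q = p} : ℝ) = #{q ∈ G | κ q ∈ P} := by exact_mod_cast j2
        _ ≤ _ := by exact_mod_cast card_le_card j3
    set N := (#{p ∈ G | |p.1 - x| ≤ 2 * r ∧ |p.2 - y| ≤ 2 * r} : ℝ) with hNd
    have hN0 : 0 ≤ N := Nat.cast_nonneg _
    have i2 : (K ^ c) ^ c₀ * K ^ 12 ≤ K ^ e := by
      rw [← pow_mul, ← pow_add]
      apply pow_le_pow_right₀ hK1
      refine le_trans ?_ hce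
      rw [mul_add]
      omega
    have i3 : m * ((K ^ c) ^ c₀ * (#P : ℝ)) ≤ m * n ^ 2 := by
      calc m * ((K ^ c) ^ c₀ * (#P : ℝ)) = (K ^ c) ^ c₀ * (m * #P) := by ring
        _ ≤ (K ^ c) ^ c₀ * (K ^ 12 * N) := mul_le_mul_of_nonneg_left i1 (by positivity)
        _ = ((K ^ c) ^ c₀ * K ^ 12) * N := by ring
        _ ≤ K ^ e * N := mul_le_mul_of_nonneg_right i2 hN0
        _ ≤ n ^ 2 * m := h3
        _ = m * n ^ 2 := by ring
    exact le_of_mul_le_mul_left i3 hm0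

open Classical in
/-- points near a strip -/
theorem PreC.near_cells (h : PreC K n m δ Q0 G A0 E om W R zc) (hN : Net K n δ G B H κ) {a : ℝ}
    (ha : a ∈ A0) {w : ι} {z : ℝ} (hz : |z - zc a w| ≤ δ) {p : ℝ × ℝ}
    (hp : p ∈ Cc K m κ (Tf G E om a w)) : |p.1 + a * p.2 - z| ≤ (K + 3) * δ := by
  obtain ⟨⟨q, hq, hqp⟩, _⟩ := mem_Cc.1 hp
  obtain ⟨h1, h4, h5⟩ := mem_Tf.1 hq
  obtain ⟨_, _, h8, h9⟩ := hN.kap q h1
  rw [hqp] at h8 h9
  have h10 := h.near _ h4
  simp only at h10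
  rw [h5] at h10
  have hK0 : 0 ≤ K := by linarith [h.hK]
  have e1 : |a * (q.2 - p.2)| ≤ K * δ := by
    rw [abs_mul]
    exact mul_le_mul (h.absA a ha).2 h9.le (abs_nonneg _) hK0
  have e2 := abs_le.1 e1
  have e3 := abs_le.1 h10
  have e4 := abs_lt.1 h8
  have e5 := abs_le.1 hz
  rw [abs_le]
  constructor <;> nlinarith

end

open Classical in
/-- **[EXTRACT]** -/
theorem stExtract : StExtract := by
  refine ⟨110, ?_⟩
  intro c₀ e q hce K n m δ ι Q0 G A0 E om W R zc h hd hn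
  have hK := h.hK
  have hK0 : 0 < K := by linarith
  have hK1 : 1 ≤ K := by linarith
  have hn1 := h.n1
  have hn0 : 0 < n := by linarith
  have hm0 := h.m0
  have hδ0 := h.δ0
  have hKp : ∀ i : ℕ, i ≤ 110 → K ^ i ≤ K ^ 110 := fun i hi => pow_le_pow_right₀ hK1 hi
  have hK110 : K ≤ K ^ 110 := by
    have := hKp 1 (by norm_num)
    rwa [pow_one] at this
  have hn5 : K ^ 5 ≤ n := le_trans (hKp 5 (by norm_num)) hn
  obtain ⟨A, Wg, hA, hAn, hWg, hWgc, hmass, hmult⟩ := h.exists_classes hn5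
  obtain ⟨B, H, κ, hN⟩ := h.exists_Net
  choose z' hz1 hz2 using fun a => exists_inj_near (Wg a) (zc a) hδ0
  set Cw : ℝ → ι → Finset (ℝ × ℝ) := fun a w => Cc K m κ (Tf G E om a w) with hCw
  set S : ℝ → Finset ℝ := fun a => (Wg a).image (z' a) with hS
  set C : ℝ → ℝ → Finset (ℝ × ℝ) := fun a s =>
    ((Wg a).filter (fun w => z' a w = s)).biUnion (Cw a) with hC
  have hTG : ∀ a w, Tf G E om a w ⊆ G := fun a w q hq => (mem_Tf.1 hq).1
  have hCsub : ∀ a w, Cw a w ⊆ Yc K m G B H κ := fun a w => Cc_sub_Yc hN (hTG a w)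
  have hCz : ∀ a, ∀ w ∈ Wg a, C a (z' a w) = Cw a w := by
    intro a w hw
    have : (Wg a).filter (fun v => z' a v = z' a w) = {w} := by
      ext v
      rw [mem_filter, mem_singleton]
      constructor
      · rintro ⟨h1, h2⟩
        exact hz1 a (mem_coe.2 h1) (mem_coe.2 hw) h2
      · rintro rfl
        exact ⟨hw, rfl⟩
    rw [hC]
    simp only
    rw [this, singleton_biUnion]
  have hYB : ∀ p ∈ Yc K m G B H κ, p.1 ∈ B ∧ p.2 ∈ H := by
    intro p hp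
    exact mem_product.1 (mem_filter.1 hp).1
  have hY1 : (Yc K m G B H κ).image Prod.fst ⊆ B := by
    intro x hx
    obtain ⟨p, hp, rfl⟩ := mem_image.1 hx
    exact (hYB p hp).1
  have hY2 : (Yc K m G B H κ).image Prod.snd ⊆ H := by
    intro x hx
    obtain ⟨p, hp, rfl⟩ := mem_image.1 hx
    exact (hYB p hp).2
  refine ⟨Yc K m G B H κ, A, S, C, hA, ?_⟩
  constructor
  · exact hK.trans hK110
  · exact hn1
  · exact hδ0
  · exact h.δ1
  · exact hm0
  · intro x y r h1 h2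
    exact h.dim_cells hN hce (by norm_num) hd x y r h1 h2
  · intro p hp
    exact ⟨hN.bB _ (hYB p hp).1, hN.bH _ (hYB p hp).2⟩
  · intro x hx y hy
    exact hN.sB x (hY1 hx) y (hY1 hy)
  · intro x hx y hy
    exact hN.sH x (hY2 hx) y (hY2 hy)
  · calc (#((Yc K m G B H κ).image Prod.fst) : ℝ) ≤ #B := by exact_mod_cast card_le_card hY1
      _ ≤ K * n := hN.cB
      _ ≤ K ^ 110 * n := mul_le_mul_of_nonneg_right hK110 hn0.le
  · calc (#((Yc K m G B H κ).image Prod.snd) : ℝ) ≤ #H := by exact_mod_cast card_le_card hY2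
      _ ≤ K * n := hN.cH
      _ ≤ K ^ 110 * n := mul_le_mul_of_nonneg_right hK110 hn0.le
  · intro a ha
    have h1 := h.absA a (hA ha)
    exact ⟨h1.1.trans (mul_le_mul_of_nonneg_right hK110 (abs_nonneg _)), h1.2.trans hK110⟩
  · exact hAn.trans (mul_le_mul_of_nonneg_right (hKp 2 (by norm_num)) (Nat.cast_nonneg _))
  · intro a ha
    calc (#(S a) : ℝ) ≤ #(Wg a) := by exact_mod_cast card_image_le
      _ ≤ K * n := hWgc a ha
      _ ≤ K ^ 110 * n := mul_le_mul_of_nonneg_right hK110 hn0.le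
  · intro a ha s hs
    obtain ⟨w, hw, rfl⟩ := mem_image.1 hs
    rw [hCz a w hw]
    exact hCsub a w
  · intro a ha s hs p hp
    obtain ⟨w, hw, rfl⟩ := mem_image.1 hs
    rw [hCz a w hw] at hp
    refine (h.near_cells hN (hA ha) (hz2 a w hw) hp).trans ?_
    apply mul_le_mul_of_nonneg_right _ hδ0.le
    calc K + 3 ≤ K ^ 3 := by
          have e1 : (2 : ℝ) ^ 2 ≤ K ^ 2 := pow_le_pow_left₀ (by norm_num) hK 2
          nlinarith [mul_le_mul_of_nonneg_left e1 hK0.le]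
      _ ≤ K ^ 110 := hKp 3 (by norm_num)
  · intro a ha
    have h1 := h.full_cells hN (hA ha) (hWgc a ha) (hmass a ha)
    have h2 : (S a).biUnion (C a) = (Wg a).biUnion (Cw a) := by
      rw [hS]
      simp only
      rw [image_biUnion]
      exact biUnion_congr rfl fun w hw => hCz a w hw
    rw [h2]
    exact h1.trans (mul_le_mul_of_nonneg_right (hKp 7 (by norm_num)) (Nat.cast_nonneg _))
  · calc (#Q0 : ℝ) ≤ K * n ^ 2 * m := h.cQ
      _ ≤ K ^ 110 * n ^ 2 * m := by gcongr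
  · intro al hal s₀ h₀ t r ht htr hr1
    have halK := (h.absA al (hA hal)).2
    have hstar := h.star_cells hN hWg hmult (s₀ := s₀) (h₀ := h₀) halK ht (ht.trans htr)
    have ht0 : 0 < t := lt_of_lt_of_le hδ0 ht
    have hr0 : 0 < r := lt_of_lt_of_le ht0 htr
    have e1 : ∑ a ∈ A, ∑ s ∈ S a,
        (m * (#{p ∈ C a s | |p.1 + al * p.2 - s₀| ≤ t ∧ |p.2 - h₀| ≤ r} : ℝ)) ^ 3 =
        ∑ a ∈ A, ∑ w ∈ Wg a, (m * (#{p ∈ Cc K m κ (Tf G E om a w) |
          |p.1 + al * p.2 - s₀| ≤ t ∧ |p.2 - h₀| ≤ r} : ℝ)) ^ 3 := by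
      apply sum_congr rfl
      intro a _
      rw [hS]
      simp only
      rw [sum_image (hz1 a)]
      apply sum_congr rfl
      intro w hw
      rw [hCz a w hw]
    rw [e1]
    refine hstar.trans ?_
    have e2 : (#{q ∈ Q0 | Bx al ((K + 2) * t) (2 * r) s₀ h₀ q} : ℝ) ≤
        (#{p ∈ Q0 | |p.1 + al * p.2 - s₀| ≤ K ^ 110 * t ∧ |p.2 - h₀| ≤ K ^ 110 * r} : ℝ) := by
      have : #{q ∈ Q0 | Bx al ((K + 2) * t) (2 * r) s₀ h₀ q} ≤
          #{p ∈ Q0 | |p.1 + al * p.2 - s₀| ≤ K ^ 110 * t ∧ |p.2 - h₀| ≤ K ^ 110 * r} := by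
        apply card_le_card
        intro p hp
        obtain ⟨h1, h2, h3⟩ := mem_filter.1 hp
        refine mem_filter.2 ⟨h1, h2.trans ?_, h3.trans ?_⟩
        · apply mul_le_mul_of_nonneg_right _ ht0.le
          calc K + 2 ≤ K ^ 2 + K ^ 1 := by nlinarith
            _ ≤ K ^ 3 := by nlinarith [pow_pos hK0 2]
            _ ≤ K ^ 110 := hKp 3 (by norm_num)
        · exact mul_le_mul_of_nonneg_right (hK.trans hK110) hr0.le
      exact_mod_cast this
    have e3 := hKp 102 (by norm_num)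
    gcongr

/-- **[PREKILL]**: the point level data satisfying the dimension condition do not exist -/
theorem stPreKill : StPreKill := preKill_of stExtract H626.gridKillQ

end Vale.Agent.P065.H537
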