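import Vale.Agent.P065.H537.Strip

/-!
# P065, upper bound: JOIN (helper537)

`sparse`: if every point of `Y` has at most `s` partners in `Y` (slope of the pair in `I`), then a
set `F` of `k`-edges of the window with all ends in `Y` has at most `5 h (w + V)` elements, where
`h ^ 3 ≥ 256 (2 s + 3)`.

`join`: for **any** set `F` of `k`-edges of the window,
`#F ^ 6 ≤ C (w + V) ^ 6 (#(pairs of ends of F with slope in I) + 1)`.
-/

set_option autoImplicit false

namespace Vale.Agent.P065.H537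

open Finset UB

variable {P : Finset Pt} {k : ℕ} {Q : Finset Pt} {I : Set ℝ}

/-- the rank in `Y` of two partners differs by at most the numbers of their partners -/
theorem rank_near (hP : Good P) (hI : I.OrdConnected) {Y : Finset Pt} (hY : Y ⊆ P) {u v : Pt}
    (hu : u ∈ Y) (hv : v ∈ Y) (huv : u.1 < v.1) (ht' : sl u v ∈ I) {m : ℝ} (hm : m ∈ I) :
    #(RankAux.Bel Y m v) ≤
      #(RankAux.Bel Y m u) + #(RankAux.Par Y I u) + #(RankAux.Par Y I v) := by
  classical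
  have h1 := RankAux.shift hP hY hI hm ht' hv
  have h2 := RankAux.shift hP hY hI ht' hm hu
  have h3 : RankAux.Bel Y (sl u v) u = RankAux.Bel Y (sl u v) v := by
    have h4 : ht (sl u v) u = ht (sl u v) v := (RankAux.ht_eq_iff huv _).2 rfl
    unfold RankAux.Bel
    rw [h4]
  rw [h3] at h2
  omega

/-- two positions of one piece are partners -/
theorem piece_slope (hP : Good P) (hI : I.OrdConnected) {e f : Eg} (he : e ∈ EdIn P k Q I)
    (hf : f ∈ EdIn P k Q I) (hr : root P k Q I e = root P k Q I f) (hx : e.1.1 < f.2.1) :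
    sl e.1 f.2 ∈ I := by
  have hc := chord hP (e1 := e) (e2 := f) (z1 := e.1.1) (z2 := f.2.1) hr le_rfl
    (EdIn.lt he).le (EdIn.lt hf).le le_rfl hx
  rw [Ln_fst, Ln_snd f (EdIn.lt hf)] at hc
  have h0 : 0 < f.2.1 - e.1.1 := by linarith
  have h1 : slE e ≤ sl e.1 f.2 := by
    unfold sl
    rw [le_div_iff₀ h0]
    exact hc.1
  have h2 : sl e.1 f.2 ≤ slE f := by
    conv_lhs => unfold sl
    rw [div_le_iff₀ h0]
    exact hc.2
  exact hI.out (mem_EdIn.mp he).2.2.2 (mem_EdIn.mp hf).2.2.2 ⟨h1, h2⟩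

theorem strip_arith {g y r t c h H : ℝ} (hy0 : 0 ≤ y) (hr0 : 0 ≤ r) (ht0 : 0 ≤ t)
    (hh0 : 0 ≤ h) (hc : g ^ 3 ≤ 64 * y ^ 2 * c) (hcc : c ≤ 2 * r ^ 2 + t ^ 2) (hy : y ≤ 2 * H)
    (hh : 256 * H ≤ h ^ 3) : g ≤ h * (y + r + t) := by
  have h1 : c ≤ 2 * (r + t) ^ 2 := by
    nlinarith [mul_nonneg hr0 ht0, sq_nonneg t]
  have h2 : g ^ 3 ≤ 64 * y ^ 2 * (2 * (r + t) ^ 2) :=
    hc.trans (mul_le_mul_of_nonneg_left h1 (by positivity))
  have h3 : 64 * y ^ 2 * (2 * (r + t) ^ 2) = (128 * y) * (y * (r + t) ^ 2) := by ring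
  have h4 : (128 * y) * (y * (r + t) ^ 2) ≤ h ^ 3 * (y * (r + t) ^ 2) :=
    mul_le_mul_of_nonneg_right (by linarith) (by positivity)
  have e1 : (r + t) ^ 2 ≤ (y + r + t) ^ 2 := pow_le_pow_left₀ (by positivity) (by linarith) 2
  have e2 : y * (r + t) ^ 2 ≤ (y + r + t) * (y + r + t) ^ 2 :=
    mul_le_mul (by linarith) e1 (by positivity) (by positivity)
  have h5 : h ^ 3 * (y * (r + t) ^ 2) ≤ h ^ 3 * ((y + r + t) * (y + r + t) ^ 2) :=
    mul_le_mul_of_nonneg_left e2 (by positivity)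
  have h6 : h ^ 3 * ((y + r + t) * (y + r + t) ^ 2) = (h * (y + r + t)) ^ 3 := by ring
  exact le_of_pow_le_pow_left₀ (n := 3) (by norm_num) (by positivity) (by linarith)

open Classical in
/-- the bound in one strip -/
theorem strip_bound (hL : Loc P k Q I) {m : ℝ} (hm : ∀ e ∈ EdIn P k Q I, m ≤ slE e)
    (G : Finset Eg) (hG : G ⊆ EdIn P k Q I) (S : Finset Pt)
    (hS : ∀ e ∈ G, ∀ e' ∈ G, ∀ v ∈ Tch P k Q I, ht m e.2 ≤ ht m v →
      ht m v ≤ ht m e'.1 → v ∈ S) (Y : Finset Pt) (hYP : Y ⊆ P)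
    (hY : ∀ e ∈ G, e.1 ∈ Y ∧ e.2 ∈ Y) {H h : ℝ} (hYc : (#Y : ℝ) ≤ 2 * H) (h4 : 4 ≤ h)
    (hh : 256 * H ≤ h ^ 3) :
    (#G : ℝ) ≤ h * (#Y + #(G.image (root P k Q I)) + #S) := by
  have hP := hL.good
  have hy0 : (0 : ℝ) ≤ #Y := Nat.cast_nonneg _
  have hr0 : (0 : ℝ) ≤ #(G.image (root P k Q I)) := Nat.cast_nonneg _
  have ht0 : (0 : ℝ) ≤ #S := Nat.cast_nonneg _
  by_cases h12 : 4 * #Y ≤ #G
  · have hGP : UB350.GP Y := fun p hp q hq r hr =>
      H882.det3_ne hP p (hYP hp) q (hYP hq) r (hYP hr)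
    have hES : UB350.EdgeSet Y G := fun e he => ⟨(hY e he).1, (hY e he).2, EdIn.lt (hG he)⟩
    have hc := UB350.crossing_lemma Y hGP G hES (CrG G)
      (fun e he f hf hne hcr => CrG_complete hP hG he hf hne hcr) h12
    have hcc := card_CrG hL hm G hG S hS
    have hcc' : (#(CrG G) : ℝ) ≤ 2 * (#(G.image (root P k Q I)) : ℝ) ^ 2 + (#S : ℝ) ^ 2 := by
      exact_mod_cast hcc
    exact strip_arith hy0 hr0 ht0 (by linarith) hc hcc' hYc hh
  · push Not at h12
    have h5 : (#G : ℝ) ≤ 4 * #Y := by exact_mod_cast h12.le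
    have h6 : 4 * (#Y : ℝ) ≤ h * #Y := mul_le_mul_of_nonneg_right h4 hy0
    have h7 : 0 ≤ h * (#(G.image (root P k Q I)) : ℝ) := by positivity
    have h8 : 0 ≤ h * (#S : ℝ) := by positivity
    linarith

open Classical in
/-- **SPARSE**: few partners, few edges -/
theorem sparse (hP : Good P) (hQ : Q ⊆ P) (hI : I.OrdConnected) {F : Finset Eg}
    (hF : F ⊆ EdIn P k Q I) {Y : Finset Pt} (hY : ∀ e ∈ F, e.1 ∈ Y ∧ e.2 ∈ Y)
    (hYT : Y ⊆ Tch P k Q I) {s : ℕ} (hs : ∀ y ∈ Y, #(RankAux.Par Y I y) ≤ s) {h : ℝ}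
    (h4 : 4 ≤ h) (hh : 256 * (2 * s + 3 : ℝ) ≤ h ^ 3) :
    (#F : ℝ) ≤ 5 * h * (#(Tch P k Q I) + #(EdBd P k Q I)) := by
  have hL : Loc P k Q I := ⟨hP, hQ, hI⟩
  have hTQ : Tch P k Q I ⊆ Q := fun v hv => (mem_Tch.mp hv).1
  have hYP : Y ⊆ P := hYT.trans (hTQ.trans hQ)
  have hB0 : (0 : ℝ) ≤ (#(Tch P k Q I) : ℝ) + #(EdBd P k Q I) := by positivity
  rcases F.eq_empty_or_nonempty with hFe | hFne
  · rw [hFe, card_empty]
    simp only [Nat.cast_zero]
    positivity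
  have hne : (EdIn P k Q I).Nonempty := hFne.mono hF
  obtain ⟨e0, he0, hmin⟩ := exists_min_image (EdIn P k Q I) (fun e => slE e) hne
  set m := slE e0 with hmdef
  have hmI : m ∈ I := (mem_EdIn.mp he0).2.2.2
  have hm : ∀ e ∈ EdIn P k Q I, m ≤ slE e := hmin
  set H := 2 * s + 1 with hHdef
  -- the strip of a point
  let r : Pt → ℕ := fun v => #(RankAux.Bel Y m v)
  let idx : Pt → ℕ := fun v => r v / H
  have hrmono : ∀ u v : Pt, ht m u ≤ ht m v → r u ≤ r v := by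
    intro u v huv
    apply card_le_card
    intro x hx
    rw [RankAux.mem_Bel] at hx ⊢
    exact ⟨hx.1, lt_of_lt_of_le hx.2 huv⟩
  have hidx : ∀ u v : Pt, ht m u ≤ ht m v → idx u ≤ idx v := fun u v huv =>
    Nat.div_le_div_right (hrmono u v huv)
  -- positions of one piece: at most two strips
  have hnear : ∀ e ∈ F, ∀ f ∈ F, root P k Q I e = root P k Q I f → e.1.1 < f.2.1 →
      idx f.2 ≤ idx e.1 + 1 := by
    intro e he f hf hr hx
    have h1 := piece_slope hP hI (hF he) (hF hf) hr hx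
    have h2 := rank_near hP hI hYP (hY e he).1 (hY f hf).2 hx h1 hmI
    have h3 := hs _ (hY e he).1
    have h5 := hs _ (hY f hf).2
    have h6 : r f.2 ≤ r e.1 + H := by
      show #(RankAux.Bel Y m f.2) ≤ #(RankAux.Bel Y m e.1) + H
      omega
    calc idx f.2 = r f.2 / H := rfl
      _ ≤ (r e.1 + H) / H := Nat.div_le_div_right h6
      _ = idx e.1 + 1 := by
          rw [Nat.add_div_right _ (by omega : 0 < H)]
  have hedge : ∀ e ∈ F, idx e.1 ≤ idx e.2 := fun e he =>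
    hidx _ _ (edge_ht_mono (hF he) (hm e (hF he)))
  -- order along a piece
  have hord : ∀ e ∈ F, ∀ f ∈ F, root P k Q I e = root P k Q I f → e ≠ f →
      (idx e.2 ≤ idx f.1 ∧ e.1.1 < f.2.1) ∨ (idx f.2 ≤ idx e.1 ∧ f.1.1 < e.2.1) := by
    intro e he f hf hr hne
    rcases compar hP hr with h1 | h1 | h1
    · exact absurd h1 hne
    · left
      refine ⟨hidx _ _ (bf_ht h1 (hm _ (hF he))), ?_⟩
      have := h1.range
      have h2 := EdIn.lt (hF he)
      have h3 := EdIn.lt (hF hf)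
      linarith
    · right
      refine ⟨hidx _ _ (bf_ht h1 (hm _ (hF hf))), ?_⟩
      have := h1.range
      have h2 := EdIn.lt (hF he)
      have h3 := EdIn.lt (hF hf)
      linarith
  -- jump edges
  set J := F.filter (fun e => idx e.1 ≠ idx e.2) with hJ
  set G := F.filter (fun e => idx e.1 = idx e.2) with hG
  have hFJ : #G + #J = #F := card_filter_add_card_filter_not _
  have hJc : #J ≤ #(Pcs P k Q I) := by
    refine card_le_card_of_injOn (root P k Q I) ?_ ?_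
    · intro e he
      exact root_mem_Pcs (hF (mem_filter.1 (mem_coe.1 he)).1)
    · intro e he f hf hr
      obtain ⟨he1, he2⟩ := mem_filter.1 (mem_coe.1 he)
      obtain ⟨hf1, hf2⟩ := mem_filter.1 (mem_coe.1 hf)
      by_contra hne
      have a1 := hedge e he1
      have a2 := hedge f hf1
      rcases hord e he1 f hf1 hr hne with ⟨b1, b2⟩ | ⟨b1, b2⟩
      · have := hnear e he1 f hf1 hr b2
        omega
      · have := hnear f hf1 e he1 hr.symm b2
        omega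
  -- the strips
  set Bs := G.image (fun e => idx e.1) with hBs
  let Gb : ℕ → Finset Eg := fun b => G.filter (fun e => idx e.1 = b)
  let Yb : ℕ → Finset Pt := fun b => Y.filter (fun v => idx v = b)
  let Tb : ℕ → Finset Pt := fun b => (Tch P k Q I).filter (fun v => idx v = b)
  let Rb : ℕ → Finset Eg := fun b => (Gb b).image (root P k Q I)
  have hGsum : #G = ∑ b ∈ Bs, #(Gb b) :=
    card_eq_sum_card_fiberwise (fun e he => mem_image_of_mem _ he)
  have hGb : ∀ b, ∀ e ∈ Gb b, e ∈ F ∧ idx e.1 = b ∧ idx e.2 = b := by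
    intro b e he
    obtain ⟨h1, h2⟩ := mem_filter.1 he
    obtain ⟨h3, h5⟩ := mem_filter.1 h1
    exact ⟨h3, h2, by rw [← h5, h2]⟩
  have hYsum : ∑ b ∈ Bs, #(Yb b) ≤ #Y := by
    rw [← card_biUnion]
    · apply card_le_card
      intro v hv
      obtain ⟨b, _, h1⟩ := mem_biUnion.1 hv
      exact (mem_filter.1 h1).1
    · intro b _ b' _ hbb
      rw [Function.onFun, disjoint_left]
      intro v h1 h2
      exact hbb (by rw [← (mem_filter.1 h1).2, (mem_filter.1 h2).2])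
  have hTsum : ∑ b ∈ Bs, #(Tb b) ≤ #(Tch P k Q I) := by
    rw [← card_biUnion]
    · apply card_le_card
      intro v hv
      obtain ⟨b, _, h1⟩ := mem_biUnion.1 hv
      exact (mem_filter.1 h1).1
    · intro b _ b' _ hbb
      rw [Function.onFun, disjoint_left]
      intro v h1 h2
      exact hbb (by rw [← (mem_filter.1 h1).2, (mem_filter.1 h2).2])
  have hRsum : ∑ b ∈ Bs, #(Rb b) ≤ 2 * #(Pcs P k Q I) := by
    -- pairs (root, strip)
    have h1 : ∑ b ∈ Bs, #(Rb b) = ∑ a ∈ Pcs P k Q I, #(Bs.filter (fun b => a ∈ Rb b)) := by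
      have h2 : ∀ b ∈ Bs, #(Rb b) = ∑ a ∈ Pcs P k Q I, if a ∈ Rb b then 1 else 0 := by
        intro b _
        rw [sum_boole]
        simp only [Nat.cast_id]
        congr 1
        ext a
        rw [mem_filter]
        constructor
        · intro ha
          refine ⟨?_, ha⟩
          obtain ⟨e, he, rfl⟩ := mem_image.1 ha
          exact root_mem_Pcs (hF (hGb b e he).1)
        · exact fun h => h.2
      rw [sum_congr rfl h2, sum_comm]
      apply sum_congr rfl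
      intro a _
      rw [sum_boole]
      simp only [Nat.cast_id]
    rw [h1, mul_comm, ← smul_eq_mul, ← sum_const]
    apply sum_le_sum
    intro a _
    by_contra hcon
    rw [not_le] at hcon
    obtain ⟨b1, b2, b3, m1, m2, m3, n12, n13, n23⟩ := two_lt_card_iff.1 hcon
    have key : ∀ b b' : ℕ, b ∈ Bs.filter (fun b => a ∈ Rb b) →
        b' ∈ Bs.filter (fun b => a ∈ Rb b) → b' ≤ b + 1 := by
      intro b b' hb hb'
      obtain ⟨e, he, re⟩ := mem_image.1 (mem_filter.1 hb).2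
      obtain ⟨f, hf, rf⟩ := mem_image.1 (mem_filter.1 hb').2
      obtain ⟨e1, e2, e3⟩ := hGb b e he
      obtain ⟨f1, f2, f3⟩ := hGb b' f hf
      by_cases hef : e = f
      · rw [hef] at e2
        omega
      · rcases hord e e1 f f1 (by rw [re, rf]) hef with ⟨c1, c2⟩ | ⟨c1, c2⟩
        · have := hnear e e1 f f1 (by rw [re, rf]) c2
          omega
        · omega
    have k12 := key b1 b2 m1 m2
    have k21 := key b2 b1 m2 m1
    have k13 := key b1 b3 m1 m3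
    have k31 := key b3 b1 m3 m1
    have k23 := key b2 b3 m2 m3
    have k32 := key b3 b2 m3 m2
    omega
  have hYb : ∀ b, #(Yb b) ≤ 2 * H := by
    intro b
    have h1 : Yb b ⊆ (Finset.range H).biUnion
        (fun j => Y.filter (fun v => #(RankAux.Bel Y m v) = b * H + j)) := by
      intro v hv
      obtain ⟨h1, h2⟩ := mem_filter.1 hv
      have h3 : r v = b * H + r v % H := by
        have := Nat.div_add_mod (r v) H
        rw [← h2]
        show r v = r v / H * H + r v % H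
        rw [mul_comm (r v / H) H]
        exact this.symm
      refine mem_biUnion.2 ⟨r v % H, mem_range.2 (Nat.mod_lt _ (by omega)), ?_⟩
      exact mem_filter.2 ⟨h1, h3⟩
    calc #(Yb b) ≤ _ := card_le_card h1
      _ ≤ ∑ j ∈ Finset.range H, #(Y.filter (fun v => #(RankAux.Bel Y m v) = b * H + j)) :=
          card_biUnion_le
      _ ≤ ∑ j ∈ Finset.range H, 2 := sum_le_sum fun j _ =>
          RankAux.card_rank_le hP hYP m (b * H + j)
      _ = 2 * H := by rw [sum_const, card_range, smul_eq_mul, mul_comm]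
  -- the bound in one strip
  have hstrip : ∀ b ∈ Bs, (#(Gb b) : ℝ) ≤ h * (#(Yb b) + #(Rb b) + #(Tb b)) := by
    intro b _
    refine strip_bound hL hm (Gb b) (fun e he => hF (hGb b e he).1) (Tb b) ?_ (Yb b)
      ((filter_subset _ _).trans hYP) ?_ (H := (2 * s + 1 : ℝ)) ?_ h4 ?_
    · intro e he e' he' v hv l1 l2
      refine mem_filter.2 ⟨hv, ?_⟩
      have a1 := hidx _ _ l1
      have a2 := hidx _ _ l2
      obtain ⟨_, c2, c3⟩ := hGb b e he
      obtain ⟨_, d2, d3⟩ := hGb b e' he'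
      omega
    · intro e he
      obtain ⟨h1, h2, h3⟩ := hGb b e he
      exact ⟨mem_filter.2 ⟨(hY e h1).1, h2⟩, mem_filter.2 ⟨(hY e h1).2, h3⟩⟩
    · have := hYb b
      rw [hHdef] at this
      exact_mod_cast this
    · linarith
  have hpc := card_Pcs hL
  have hpc' : (#(Pcs P k Q I) : ℝ) ≤ #(Tch P k Q I) + #(EdBd P k Q I) := by exact_mod_cast hpc
  have hGle : (#G : ℝ) ≤ h * (#Y + 2 * #(Pcs P k Q I) + #(Tch P k Q I)) := by
    have e1 : (#G : ℝ) ≤ ∑ b ∈ Bs, h * (#(Yb b) + #(Rb b) + #(Tb b) : ℝ) := by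
      rw [hGsum]
      push_cast
      exact sum_le_sum hstrip
    rw [← mul_sum, sum_add_distrib, sum_add_distrib] at e1
    have e2 : (∑ b ∈ Bs, (#(Yb b) : ℝ)) ≤ #Y := by exact_mod_cast hYsum
    have e3 : (∑ b ∈ Bs, (#(Rb b) : ℝ)) ≤ 2 * #(Pcs P k Q I) := by exact_mod_cast hRsum
    have e4 : (∑ b ∈ Bs, (#(Tb b) : ℝ)) ≤ #(Tch P k Q I) := by exact_mod_cast hTsum
    refine e1.trans (mul_le_mul_of_nonneg_left ?_ (by linarith))
    linarith
  have hYc : (#Y : ℝ) ≤ #(Tch P k Q I) := by exact_mod_cast card_le_card hYT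
  have hJc' : (#J : ℝ) ≤ #(Pcs P k Q I) := by exact_mod_cast hJc
  have hFF : (#F : ℝ) = #G + #J := by rw [← hFJ]; push_cast; ring
  have hV0 : (0 : ℝ) ≤ #(EdBd P k Q I) := Nat.cast_nonneg _
  have e5 : h * (#Y + 2 * #(Pcs P k Q I) + #(Tch P k Q I) : ℝ) ≤
      h * (4 * (#(Tch P k Q I) + #(EdBd P k Q I))) :=
    mul_le_mul_of_nonneg_left (by linarith) (by linarith)
  have e6 : (#(Tch P k Q I) + #(EdBd P k Q I) : ℝ) ≤
      h * (#(Tch P k Q I) + #(EdBd P k Q I)) := by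
    have : (1 : ℝ) * (#(Tch P k Q I) + #(EdBd P k Q I)) ≤
        h * (#(Tch P k Q I) + #(EdBd P k Q I)) := mul_le_mul_of_nonneg_right (by linarith) hB0
    linarith
  rw [hFF]
  linarith

open Classical in
/-- the ends of a set of edges -/
noncomputable def ends (F : Finset Eg) : Finset Pt := F.image Prod.fst ∪ F.image Prod.snd

theorem fst_mem_ends {F : Finset Eg} {e : Eg} (he : e ∈ F) : e.1 ∈ ends F := by
  classical
  exact mem_union_left _ (mem_image_of_mem _ he)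

theorem snd_mem_ends {F : Finset Eg} {e : Eg} (he : e ∈ F) : e.2 ∈ ends F := by
  classical
  exact mem_union_right _ (mem_image_of_mem _ he)

theorem ends_subset_Tch {F : Finset Eg} (hF : F ⊆ EdIn P k Q I) : ends F ⊆ Tch P k Q I := by
  classical
  intro v hv
  rcases mem_union.1 hv with h | h
  · obtain ⟨e, he, rfl⟩ := mem_image.1 h
    exact mem_Tch.mpr ⟨(mem_EdIn.mp (hF he)).2.1, e, hF he, Or.inl rfl⟩
  · obtain ⟨e, he, rfl⟩ := mem_image.1 h
    exact mem_Tch.mpr ⟨(mem_EdIn.mp (hF he)).2.2.1, e, hF he, Or.inr rfl⟩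

theorem Par_mono {Y Y' : Finset Pt} (h : Y' ⊆ Y) {v : Pt} :
    RankAux.Par Y' I v ⊆ RankAux.Par Y I v := by
  intro u hu
  rw [RankAux.mem_Par] at hu ⊢
  exact ⟨h hu.1, h hu.2.1, hu.2.2⟩

theorem rpow_third_mul {x B h : ℝ} (hx : 0 ≤ x) (hB : 0 ≤ B) (hh : 0 ≤ h)
    (hxh : x ≤ h ^ 3 * B) : x ^ (1 / 3 : ℝ) * B ^ (2 / 3 : ℝ) ≤ h * B := by
  have h1 : x ^ (1 / 3 : ℝ) ≤ (h ^ 3 * B) ^ (1 / 3 : ℝ) :=
    Real.rpow_le_rpow hx hxh (by norm_num)
  have h2 : (h ^ 3 * B) ^ (1 / 3 : ℝ) = h * B ^ (1 / 3 : ℝ) := by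
    rw [Real.mul_rpow (by positivity) hB, ← Real.rpow_natCast h 3, ← Real.rpow_mul hh]
    norm_num
  have h3 : B ^ (1 / 3 : ℝ) * B ^ (2 / 3 : ℝ) = B := by
    rw [← Real.rpow_add_of_nonneg hB (by norm_num) (by norm_num)]
    norm_num
  have h4 : 0 ≤ B ^ (2 / 3 : ℝ) := Real.rpow_nonneg hB _
  calc x ^ (1 / 3 : ℝ) * B ^ (2 / 3 : ℝ) ≤ (h * B ^ (1 / 3 : ℝ)) * B ^ (2 / 3 : ℝ) := by
        rw [← h2]; exact mul_le_mul_of_nonneg_right h1 h4
    _ = h * (B ^ (1 / 3 : ℝ) * B ^ (2 / 3 : ℝ)) := by ring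
    _ = h * B := by rw [h3]

open Classical in
/-- **JOIN**, with the free parameter `s`: `M` = number of pairs of ends with slope in `I` -/
theorem join_aux (hP : Good P) (hQ : Q ⊆ P) (hI : I.OrdConnected) {F : Finset Eg}
    (hF : F ⊆ EdIn P k Q I) {s : ℕ} (hs1 : 1 ≤ s) (hs : #(Sw (ends F) I) ≤ s ^ 2) {h : ℝ}
    (h4 : 4 ≤ h) (hh : 1280 * (s : ℝ) ≤ h ^ 3) :
    (#F : ℝ) ≤ 25 * h * (#(Tch P k Q I) + #(EdBd P k Q I)) := by
  set Y := ends F with hY
  set B : ℝ := (#(Tch P k Q I) : ℝ) + #(EdBd P k Q I) with hB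
  have hB0 : 0 ≤ B := by positivity
  have hYT : Y ⊆ Tch P k Q I := ends_subset_Tch hF
  have hYB : (#Y : ℝ) ≤ B := by
    have h1 : (#Y : ℝ) ≤ #(Tch P k Q I) := by exact_mod_cast card_le_card hYT
    have h2 : (0 : ℝ) ≤ #(EdBd P k Q I) := Nat.cast_nonneg _
    linarith
  set R := Y.filter (fun y => s < #(RankAux.Par Y I y)) with hR
  have hs1' : (1 : ℝ) ≤ s := by exact_mod_cast hs1
  -- few points of high degree
  have hRc : #R * s ≤ 2 * s ^ 2 := by
    calc #R * s = ∑ y ∈ R, s := by rw [sum_const, smul_eq_mul]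
      _ ≤ ∑ y ∈ R, #(RankAux.Par Y I y) := sum_le_sum fun y hy => (mem_filter.1 hy).2.le
      _ ≤ ∑ y ∈ Y, #(RankAux.Par Y I y) := sum_le_sum_of_subset (filter_subset _ _)
      _ ≤ 2 * #(Sw Y I) := RankAux.sum_Par Y I
      _ ≤ 2 * s ^ 2 := by omega
  have hRc' : #R ≤ 2 * s := by
    have h1 : #R * s ≤ (2 * s) * s := by rw [mul_assoc, ← sq]; exact hRc
    exact Nat.le_of_mul_le_mul_right h1 (by omega)
  have hRr : (#R : ℝ) ≤ 2 * s := by exact_mod_cast hRc'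
  set F1 := F.filter (fun e => e.1 ∈ R ∨ e.2 ∈ R) with hF1
  set F2 := F.filter (fun e => ¬ (e.1 ∈ R ∨ e.2 ∈ R)) with hF2
  have hcF : #F1 + #F2 = #F := card_filter_add_card_filter_not _
  have b1 := H882.cross_principle_bip hP hQ hI (F := F1) ((filter_subset _ _).trans hF)
    (R := R) (T := Y) (filter_subset _ _)
    (fun e he => ⟨fst_mem_ends (mem_filter.1 he).1, snd_mem_ends (mem_filter.1 he).1⟩)
    (fun e he => (mem_filter.1 he).2)
  rw [← hB] at b1
  have b2 : ((#R : ℝ) * #Y) ^ (1 / 3 : ℝ) * B ^ (2 / 3 : ℝ) ≤ h * B := by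
    apply rpow_third_mul (by positivity) hB0 (by linarith)
    apply mul_le_mul _ hYB (Nat.cast_nonneg _) (by positivity)
    linarith
  have b3 := sparse hP hQ hI (F := F2) ((filter_subset _ _).trans hF) (Y := Y \ R) (by
    intro e he
    obtain ⟨c1, c2⟩ := mem_filter.1 he
    exact ⟨mem_sdiff.2 ⟨fst_mem_ends c1, fun h' => c2 (Or.inl h')⟩,
      mem_sdiff.2 ⟨snd_mem_ends c1, fun h' => c2 (Or.inr h')⟩⟩)
    (sdiff_subset.trans hYT) (s := s) (by
    intro y hy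
    obtain ⟨c1, c2⟩ := mem_sdiff.1 hy
    refine (card_le_card (Par_mono (I := I) sdiff_subset)).trans ?_
    by_contra hcon
    exact c2 (mem_filter.2 ⟨c1, not_le.1 hcon⟩)) (h := h) h4 (by linarith)
  rw [← hB] at b3
  have hcF' : (#F : ℝ) = #F1 + #F2 := by rw [← hcF]; push_cast; ring
  have b4 : 16 * B ≤ 4 * (h * B) := by
    have := mul_le_mul_of_nonneg_right h4 hB0
    linarith
  rw [hcF']
  linarith

/-- **JOIN** -/
theorem join : ∃ C : ℝ, 0 < C ∧ ∀ (P : Finset Pt) (k : ℕ) (Q : Finset Pt) (I : Set ℝ), Good P →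
    Q ⊆ P → I.OrdConnected → ∀ F ⊆ EdIn P k Q I,
    (#F : ℝ) ^ 6 ≤ C * (#(Tch P k Q I) + #(EdBd P k Q I) : ℝ) ^ 6 * (#(Sw (ends F) I) + 1) := by
  classical
  refine ⟨25 ^ 6 * 1280 ^ 2 * 4, by norm_num, ?_⟩
  intro P k Q I hP hQ hI F hF
  set M := #(Sw (ends F) I) with hM
  set s := Nat.sqrt M + 1 with hs
  have hsM : M ≤ s ^ 2 := by
    have := Nat.lt_succ_sqrt M
    rw [sq]
    exact this.le
  have hs2 : s ^ 2 ≤ 4 * (M + 1) := by
    have h1 : Nat.sqrt M * Nat.sqrt M ≤ M := Nat.sqrt_le M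
    rw [hs]
    nlinarith [Nat.sqrt_le_self M]
  have hs2' : (s : ℝ) ^ 2 ≤ 4 * (M + 1) := by exact_mod_cast hs2
  have hs1 : 1 ≤ s := by omega
  have hs1' : (1 : ℝ) ≤ s := by exact_mod_cast hs1
  set h : ℝ := (1280 * (s : ℝ)) ^ (1 / 3 : ℝ) with hh
  have h0 : 0 ≤ h := Real.rpow_nonneg (by positivity) _
  have h3 : h ^ 3 = 1280 * s := by
    rw [hh, ← Real.rpow_natCast, ← Real.rpow_mul (by positivity)]
    norm_num
  have h4 : 4 ≤ h := by
    apply le_of_pow_le_pow_left₀ (n := 3) (by norm_num) h0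
    rw [h3]
    linarith
  have key := join_aux hP hQ hI hF hs1 hsM h4 h3.ge
  set B : ℝ := (#(Tch P k Q I) : ℝ) + #(EdBd P k Q I) with hB
  have hB0 : 0 ≤ B := by positivity
  calc (#F : ℝ) ^ 6 ≤ (25 * h * B) ^ 6 := pow_le_pow_left₀ (Nat.cast_nonneg _) key 6
    _ = 25 ^ 6 * (h ^ 3) ^ 2 * B ^ 6 := by ring
    _ = 25 ^ 6 * 1280 ^ 2 * (s : ℝ) ^ 2 * B ^ 6 := by rw [h3]; ring
    _ ≤ 25 ^ 6 * 1280 ^ 2 * (4 * (M + 1)) * B ^ 6 := by gcongr
    _ = 25 ^ 6 * 1280 ^ 2 * 4 * B ^ 6 * (M + 1) := by ring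

end Vale.Agent.P065.H537
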