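import Vale.Agent.P065.H537.Join

/-!
# P065, upper bound: JOIN, vertex-cover form (helper537, after helper334)

`sparseV`: if every point of `M` has at most `s` partners in `M`, then a set `F` of `k`-edges of the
window, all with an end in `M`, has at most `7 h (w + V)` elements, `h ^ 3 ≥ 1152 (2 s + 1)`.

`joinV`: `#F ^ 6 ≤ C (w + V) ^ 6 (#(pairs of M with slope in I) + 1)`.
-/

set_option autoImplicit false

namespace Vale.Agent.P065.H537

open Finset UB

variable {P : Finset Pt} {k : ℕ} {Q : Finset Pt} {I : Set ℝ}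

/-- two positions of one piece -/
theorem pos_slope (hP : Good P) {e f : Eg} (he : e ∈ EdIn P k Q I)
    (hf : f ∈ EdIn P k Q I) (hr : root P k Q I e = root P k Q I f) {x y : Pt}
    (hx : x = e.1 ∨ x = e.2) (hy : y = f.1 ∨ y = f.2) (hxy : x.1 < y.1) :
    slE e ≤ sl x y ∧ sl x y ≤ slE f := by
  have le := EdIn.lt he
  have lf := EdIn.lt hf
  have x1 : e.1.1 ≤ x.1 ∧ x.1 ≤ e.2.1 ∧ Ln e x.1 = x.2 := by
    rcases hx with rfl | rfl
    · exact ⟨le_rfl, le.le, Ln_fst e⟩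
    · exact ⟨le.le, le_rfl, Ln_snd e le⟩
  have y1 : f.1.1 ≤ y.1 ∧ y.1 ≤ f.2.1 ∧ Ln f y.1 = y.2 := by
    rcases hy with rfl | rfl
    · exact ⟨le_rfl, lf.le, Ln_fst f⟩
    · exact ⟨lf.le, le_rfl, Ln_snd f lf⟩
  have hc := chord hP (e1 := e) (e2 := f) (z1 := x.1) (z2 := y.1) hr x1.1 x1.2.1 y1.1 y1.2.1 hxy
  rw [x1.2.2, y1.2.2] at hc
  have h0 : 0 < y.1 - x.1 := by linarith
  constructor
  · unfold sl
    rw [le_div_iff₀ h0]
    exact hc.1
  · conv_lhs => unfold sl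
    rw [div_le_iff₀ h0]
    exact hc.2

theorem bf_of_slope (hP : Good P) {e f : Eg} (hr : root P k Q I e = root P k Q I f)
    (h : slE e < slE f) : Bf P k Q I e f := by
  rcases compar hP hr with h1 | h1 | h1
  · rw [h1] at h
    exact absurd h (lt_irrefl _)
  · exact h1
  · have := h1.slope
    linarith

theorem cube_arith {g a b c h K : ℝ} (hb : 0 ≤ b) (hh : 0 ≤ h) (hK : 0 ≤ K)
    (hg : g ^ 3 ≤ K * a * b * c) (ha0 : 0 ≤ a) (hc : c ≤ 2 * b ^ 2)
    (hh3 : 2 * K * a ≤ h ^ 3) : g ≤ h * b := by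
  have h1 : K * a * b * c ≤ K * a * b * (2 * b ^ 2) :=
    mul_le_mul_of_nonneg_left hc (by positivity)
  have h2 : K * a * b * (2 * b ^ 2) = 2 * K * a * b ^ 3 := by ring
  have h3 : 2 * K * a * b ^ 3 ≤ h ^ 3 * b ^ 3 := mul_le_mul_of_nonneg_right hh3 (by positivity)
  have h4 : h ^ 3 * b ^ 3 = (h * b) ^ 3 := by ring
  exact le_of_pow_le_pow_left₀ (n := 3) (by norm_num) (by positivity) (by linarith)

open Classical in
/-- the bound in one strip, vertex-cover form -/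
theorem strip_boundV (hL : Loc P k Q I) {m : ℝ} (hm : ∀ e ∈ EdIn P k Q I, m ≤ slE e)
    (G : Finset Eg) (hG : G ⊆ EdIn P k Q I) (S : Finset Pt)
    (hS : ∀ e ∈ G, ∀ e' ∈ G, ∀ v ∈ Tch P k Q I, ht m e.2 ≤ ht m v →
      ht m v ≤ ht m e'.1 → v ∈ S) (hSP : S ⊆ P) (hGS : ∀ e ∈ G, e.1 ∈ S ∧ e.2 ∈ S)
    (R : Finset Pt) (hRS : R ⊆ S) (hR : ∀ e ∈ G, e.1 ∈ R ∨ e.2 ∈ R) {H h : ℝ}
    (hRc : (#R : ℝ) ≤ 2 * H) (h12 : 12 ≤ h) (hh : 1152 * H ≤ h ^ 3) :
    (#G : ℝ) ≤ 2 * h * (#(G.image (root P k Q I)) + #S) := by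
  have hP := hL.good
  have hr0 : (0 : ℝ) ≤ #(G.image (root P k Q I)) := Nat.cast_nonneg _
  have ht0 : (0 : ℝ) ≤ #S := Nat.cast_nonneg _
  have hR0 : (0 : ℝ) ≤ #R := Nat.cast_nonneg _
  have hRS' : (#R : ℝ) ≤ #S := by exact_mod_cast card_le_card hRS
  have hcc := card_CrG hL hm G hG S hS
  have hcc' : (#(CrG G) : ℝ) ≤ 2 * (#(G.image (root P k Q I)) : ℝ) ^ 2 + (#S : ℝ) ^ 2 := by
    exact_mod_cast hcc
  set b : ℝ := #(G.image (root P k Q I)) + (#S : ℝ) with hb
  have hb0 : 0 ≤ b := by positivity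
  have hcb : (#(CrG G) : ℝ) ≤ 2 * b ^ 2 := by
    rw [hb]
    nlinarith [mul_nonneg hr0 ht0, sq_nonneg (#S : ℝ)]
  have hc0 : (0 : ℝ) ≤ #(CrG G) := Nat.cast_nonneg _
  have hSb : (#S : ℝ) ≤ b := by rw [hb]; linarith
  set F1 := G.filter (fun e => e.1 ∈ R ∧ e.2 ∈ R) with hF1
  set F2 := G.filter (fun e => ¬ (e.1 ∈ R ∧ e.2 ∈ R)) with hF2
  have hcF : #F1 + #F2 = #G := card_filter_add_card_filter_not _
  -- edges inside `R`
  have hb1 : (#F1 : ℝ) ≤ h * b := by
    by_cases h4 : 4 * #R ≤ #F1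
    · have hGP : UB350.GP R := fun p hp q hq r hr =>
        H882.det3_ne hP p (hSP (hRS hp)) q (hSP (hRS hq)) r (hSP (hRS hr))
      have hES : UB350.EdgeSet R F1 := fun e he =>
        ⟨(mem_filter.1 he).2.1, (mem_filter.1 he).2.2, EdIn.lt (hG (mem_filter.1 he).1)⟩
      have hc := UB350.crossing_lemma R hGP F1 hES (CrG G)
        (fun e he f hf hne hcr => CrG_complete hP hG (mem_filter.1 he).1 (mem_filter.1 hf).1
          hne hcr) h4
      have hc' : (#F1 : ℝ) ^ 3 ≤ 64 * #R * b * #(CrG G) := by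
        calc (#F1 : ℝ) ^ 3 ≤ 64 * (#R : ℝ) ^ 2 * #(CrG G) := hc
          _ = 64 * #R * #R * #(CrG G) := by ring
          _ ≤ 64 * #R * b * #(CrG G) := by
              apply mul_le_mul_of_nonneg_right _ hc0
              exact mul_le_mul_of_nonneg_left (by linarith) (by positivity)
      exact cube_arith hb0 (by linarith) (by norm_num) hc' hR0 hcb (by linarith)
    · push Not at h4
      have h5 : (#F1 : ℝ) ≤ 4 * #R := by exact_mod_cast h4.le
      have h6 : 12 * b ≤ h * b := mul_le_mul_of_nonneg_right h12 hb0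
      linarith
  -- mixed edges
  have hb2 : (#F2 : ℝ) ≤ h * b := by
    by_cases h4 : 12 * #S ≤ #F2
    · have hd : Disjoint R (S \ R) := disjoint_sdiff
      have hsub : R ∪ (S \ R) ⊆ P := by
        apply union_subset
        · exact hRS.trans hSP
        · exact sdiff_subset.trans hSP
      have hGP : UB350.GP (R ∪ (S \ R)) := fun p hp q hq r hr =>
        H882.det3_ne hP p (hsub hp) q (hsub hq) r (hsub hr)
      have hE : ∀ e ∈ F2, ((e.1 ∈ R ∧ e.2 ∈ S \ R) ∨ (e.1 ∈ S \ R ∧ e.2 ∈ R)) ∧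
          e.1.1 < e.2.1 := by
        intro e he
        obtain ⟨h1, h2⟩ := mem_filter.1 he
        refine ⟨?_, EdIn.lt (hG h1)⟩
        rcases hR e h1 with h3 | h3
        · left
          exact ⟨h3, mem_sdiff.2 ⟨(hGS e h1).2, fun h => h2 ⟨h3, h⟩⟩⟩
        · right
          exact ⟨mem_sdiff.2 ⟨(hGS e h1).1, fun h => h2 ⟨h, h3⟩⟩, h3⟩
      have hc := H882.crossing_bip R (S \ R) hd hGP F2 hE (CrG G)
        (fun e he f hf hne hcr => CrG_complete hP hG (mem_filter.1 he).1 (mem_filter.1 hf).1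
          hne hcr) (card_le_card hRS) (card_le_card sdiff_subset) h4
      have hc' : (#F2 : ℝ) ^ 3 ≤ 288 * #R * b * #(CrG G) := by
        calc (#F2 : ℝ) ^ 3 ≤ 288 * (#R : ℝ) * #S * #(CrG G) := hc
          _ ≤ 288 * #R * b * #(CrG G) := by
              apply mul_le_mul_of_nonneg_right _ hc0
              exact mul_le_mul_of_nonneg_left hSb (by positivity)
      exact cube_arith hb0 (by linarith) (by norm_num) hc' hR0 hcb (by linarith)
    · push Not at h4
      have h5 : (#F2 : ℝ) ≤ 12 * #S := by exact_mod_cast h4.le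
      have h6 : 12 * b ≤ h * b := mul_le_mul_of_nonneg_right h12 hb0
      linarith
  have hcF' : (#G : ℝ) = #F1 + #F2 := by rw [← hcF]; push_cast; ring
  rw [hcF']
  linarith

open Classical in
/-- at most three jump edges per piece -/
theorem jump_le (hP : Good P) {J : Finset Eg} (hJ : J ⊆ EdIn P k Q I) {idx : Pt → ℕ}
    {mend : Eg → Pt} (hm : ∀ e ∈ J, mend e = e.1 ∨ mend e = e.2)
    (hlt : ∀ e ∈ J, idx e.1 < idx e.2)
    (hbf : ∀ e ∈ J, ∀ f ∈ J, Bf P k Q I e f → idx e.2 ≤ idx f.1)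
    (hnear : ∀ e ∈ J, ∀ f ∈ J, root P k Q I e = root P k Q I f →
      idx (mend f) ≤ idx (mend e) + 1) :
    #J ≤ 3 * #(Pcs P k Q I) := by
  have h1 : #J ≤ 3 * #(J.image (root P k Q I)) := by
    apply card_le_mul_card_image
    intro a _
    by_contra hcon
    rw [not_le] at hcon
    set A := J.filter (fun e => root P k Q I e = a) with hA
    have hinj : Set.InjOn slE (A : Set Eg) := by
      intro e he f hf hef
      have he' := (mem_filter.1 (mem_coe.1 he)).1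
      have hf' := (mem_filter.1 (mem_coe.1 hf)).1
      exact slE_inj hP (mem_EdIn.mp (hJ he')).1 (mem_EdIn.mp (hJ hf')).1 hef
    have hc4 : 4 ≤ #(A.image slE) := by
      rw [card_image_of_injOn hinj]
      omega
    set φ := (A.image slE).orderEmbOfCardLe hc4 with hφ
    have hmem : ∀ i, φ i ∈ A.image slE := fun i => orderEmbOfCardLe_mem _ _ _
    have hch : ∀ i, ∃ e, e ∈ A ∧ slE e = φ i := fun i => by
      obtain ⟨e, he, hs⟩ := mem_image.1 (hmem i)
      exact ⟨e, he, hs⟩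
    choose E hE1 hE2 using hch
    have hEJ : ∀ i, E i ∈ J := fun i => (mem_filter.1 (hE1 i)).1
    have hroot : ∀ i j, root P k Q I (E i) = root P k Q I (E j) := fun i j => by
      rw [(mem_filter.1 (hE1 i)).2, (mem_filter.1 (hE1 j)).2]
    have hstep : ∀ i j : Fin 4, i < j → idx (E i).2 ≤ idx (E j).1 := by
      intro i j hij
      apply hbf _ (hEJ i) _ (hEJ j)
      apply bf_of_slope hP (hroot i j)
      rw [hE2, hE2]
      exact φ.strictMono hij
    have s01 := hstep 0 1 (by decide)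
    have s12 := hstep 1 2 (by decide)
    have s23 := hstep 2 3 (by decide)
    have l0 := hlt _ (hEJ 0)
    have l1 := hlt _ (hEJ 1)
    have l2 := hlt _ (hEJ 2)
    have l3 := hlt _ (hEJ 3)
    have n := hnear _ (hEJ 0) _ (hEJ 3) (hroot 0 3)
    have m0 : idx (mend (E 0)) ≤ idx (E 0).2 := by
      rcases hm _ (hEJ 0) with h | h
      · rw [h]; omega
      · rw [h]
    have m3 : idx (E 3).1 ≤ idx (mend (E 3)) := by
      rcases hm _ (hEJ 3) with h | h
      · rw [h]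
      · rw [h]; omega
    omega
  refine h1.trans (Nat.mul_le_mul_left 3 (card_le_card ?_))
  intro a ha
  obtain ⟨e, he, rfl⟩ := mem_image.1 ha
  exact root_mem_Pcs (hJ he)

/-- a strip is visited: counting of (piece, strip) incidences -/
theorem sum_image_le {α β : Type*} [DecidableEq α] [DecidableEq β] (Bs : Finset ℕ)
    (Rb : ℕ → Finset α) (A : Finset α) (hsub : ∀ b ∈ Bs, Rb b ⊆ A)
    (hnear : ∀ a ∈ A, ∀ b ∈ Bs, ∀ b' ∈ Bs, a ∈ Rb b → a ∈ Rb b' → b' ≤ b + 1) :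
    ∑ b ∈ Bs, #(Rb b) ≤ 2 * #A := by
  have h1 : ∑ b ∈ Bs, #(Rb b) = ∑ a ∈ A, #(Bs.filter (fun b => a ∈ Rb b)) := by
    have h2 : ∀ b ∈ Bs, #(Rb b) = ∑ a ∈ A, if a ∈ Rb b then 1 else 0 := by
      intro b hb
      rw [sum_boole]
      simp only [Nat.cast_id]
      congr 1
      ext a
      rw [mem_filter]
      exact ⟨fun ha => ⟨hsub b hb ha, ha⟩, fun h => h.2⟩
    rw [sum_congr rfl h2, sum_comm]
    apply sum_congr rfl
    intro a _
    rw [sum_boole]
    simp only [Nat.cast_id]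
  rw [h1, mul_comm, ← smul_eq_mul, ← sum_const]
  apply sum_le_sum
  intro a ha
  by_contra hcon
  rw [not_le] at hcon
  obtain ⟨b1, b2, b3, m1, m2, m3, n12, n13, n23⟩ := two_lt_card_iff.1 hcon
  have key : ∀ b b' : ℕ, b ∈ Bs.filter (fun b => a ∈ Rb b) →
      b' ∈ Bs.filter (fun b => a ∈ Rb b) → b' ≤ b + 1 := by
    intro b b' hb hb'
    exact hnear a ha b (mem_filter.1 hb).1 b' (mem_filter.1 hb').1 (mem_filter.1 hb).2
      (mem_filter.1 hb').2
  have k12 := key b1 b2 m1 m2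
  have k21 := key b2 b1 m2 m1
  have k13 := key b1 b3 m1 m3
  have k31 := key b3 b1 m3 m1
  have k23 := key b2 b3 m2 m3
  have k32 := key b3 b2 m3 m2
  omega

/-- the level sets of a function are disjoint -/
theorem sum_filter_le {α : Type*} [DecidableEq α] (Bs : Finset ℕ) (T : Finset α) (f : α → ℕ) :
    ∑ b ∈ Bs, #(T.filter (fun v => f v = b)) ≤ #T := by
  rw [← card_biUnion]
  · apply card_le_card
    intro v hv
    obtain ⟨b, _, h1⟩ := mem_biUnion.1 hv
    exact (mem_filter.1 h1).1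
  · intro b _ b' _ hbb
    rw [Function.onFun, disjoint_left]
    intro v h1 h2
    exact hbb (by rw [← (mem_filter.1 h1).2, (mem_filter.1 h2).2])

open Classical in
theorem strip_card (hP : Good P) {M : Finset Pt} (hM : M ⊆ P) (m : ℝ) {H : ℕ} (hH : 0 < H)
    (b : ℕ) : #(M.filter (fun v => #(RankAux.Bel M m v) / H = b)) ≤ 2 * H := by
  have h1 : M.filter (fun v => #(RankAux.Bel M m v) / H = b) ⊆ (Finset.range H).biUnion
      (fun j => M.filter (fun v => #(RankAux.Bel M m v) = b * H + j)) := by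
    intro v hv
    obtain ⟨h1, h2⟩ := mem_filter.1 hv
    have h3 : #(RankAux.Bel M m v) = b * H + #(RankAux.Bel M m v) % H := by
      have := Nat.div_add_mod #(RankAux.Bel M m v) H
      rw [h2] at this
      rw [mul_comm b H]
      exact this.symm
    refine mem_biUnion.2 ⟨#(RankAux.Bel M m v) % H, mem_range.2 (Nat.mod_lt _ hH), ?_⟩
    exact mem_filter.2 ⟨h1, h3⟩
  calc #(M.filter (fun v => #(RankAux.Bel M m v) / H = b)) ≤ _ := card_le_card h1
    _ ≤ ∑ j ∈ Finset.range H, #(M.filter (fun v => #(RankAux.Bel M m v) = b * H + j)) :=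
        card_biUnion_le
    _ ≤ ∑ j ∈ Finset.range H, 2 := sum_le_sum fun j _ =>
        RankAux.card_rank_le hP hM m (b * H + j)
    _ = 2 * H := by rw [sum_const, card_range, smul_eq_mul, mul_comm]

open Classical in
/-- **SPARSE**, vertex-cover form -/
theorem sparseV (hP : Good P) (hQ : Q ⊆ P) (hI : I.OrdConnected) {F : Finset Eg}
    (hF : F ⊆ EdIn P k Q I) {M : Finset Pt} (hM : ∀ e ∈ F, e.1 ∈ M ∨ e.2 ∈ M)
    (hMT : M ⊆ Tch P k Q I) {s : ℕ} (hs : ∀ y ∈ M, #(RankAux.Par M I y) ≤ s) {h : ℝ}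
    (h12 : 12 ≤ h) (hh : 1152 * (2 * s + 1 : ℝ) ≤ h ^ 3) :
    (#F : ℝ) ≤ 7 * h * (#(Tch P k Q I) + #(EdBd P k Q I)) := by
  have hL : Loc P k Q I := ⟨hP, hQ, hI⟩
  have hTQ : Tch P k Q I ⊆ Q := fun v hv => (mem_Tch.mp hv).1
  have hTP : Tch P k Q I ⊆ P := hTQ.trans hQ
  have hMP : M ⊆ P := hMT.trans hTP
  have hB0 : (0 : ℝ) ≤ (#(Tch P k Q I) : ℝ) + #(EdBd P k Q I) := by positivity
  rcases F.eq_empty_or_nonempty with hFe | hFne
  · rw [hFe, card_empty]
    simp only [Nat.cast_zero]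
    positivity
  have hne : (EdIn P k Q I).Nonempty := hFne.mono hF
  obtain ⟨e0, he0, hmin⟩ := exists_min_image (EdIn P k Q I) (fun e => slE e) hne
  set m := slE e0 with hmdef
  have hmI : m ∈ I := (mem_EdIn.mp he0).2.2.2
  have hm : ∀ e ∈ EdIn P k Q I, m ≤ slE e := hmin
  set H := 2 * s + 1 with hHdef
  let r : Pt → ℕ := fun v => #(RankAux.Bel M m v)
  let idx : Pt → ℕ := fun v => r v / H
  have hrmono : ∀ u v : Pt, ht m u ≤ ht m v → r u ≤ r v := by
    intro u v huv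
    apply card_le_card
    intro x hx
    rw [RankAux.mem_Bel] at hx ⊢
    exact ⟨hx.1, lt_of_lt_of_le hx.2 huv⟩
  have hidx : ∀ u v : Pt, ht m u ≤ ht m v → idx u ≤ idx v := fun u v huv =>
    Nat.div_le_div_right (hrmono u v huv)
  -- `M`-positions of one piece: at most two strips
  have hnear : ∀ e ∈ F, ∀ f ∈ F, root P k Q I e = root P k Q I f → ∀ x y : Pt, x ∈ M → y ∈ M →
      (x = e.1 ∨ x = e.2) → (y = f.1 ∨ y = f.2) → idx y ≤ idx x + 1 := by
    intro e he f hf hr x y hxM hyM hx hy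
    rcases lt_trichotomy x.1 y.1 with hxy | hxy | hxy
    · have h1 := pos_slope hP (hF he) (hF hf) hr hx hy hxy
      have h1' : sl x y ∈ I :=
        hI.out (mem_EdIn.mp (hF he)).2.2.2 (mem_EdIn.mp (hF hf)).2.2.2 h1
      have h2 := rank_near hP hI hMP hxM hyM hxy h1' hmI
      have h3 := hs _ hxM
      have h5 := hs _ hyM
      have h6 : r y ≤ r x + H := by
        show #(RankAux.Bel M m y) ≤ #(RankAux.Bel M m x) + H
        omega
      calc idx y = r y / H := rfl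
        _ ≤ (r x + H) / H := Nat.div_le_div_right h6
        _ = idx x + 1 := by
            rw [Nat.add_div_right _ (by omega : 0 < H)]
    · rw [hP.xinj x (hMP hxM) y (hMP hyM) hxy]
      omega
    · have h1 := pos_slope hP (hF hf) (hF he) hr.symm hy hx hxy
      have h2 : m ≤ sl y x := (hm f (hF hf)).trans h1.1
      have h3 : ht m y ≤ ht m x := by
        by_contra hcon
        exact absurd ((ht_lt_iff_right hxy m).1 (not_le.1 hcon)) (not_lt.2 h2)
      have := hidx _ _ h3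
      omega
  have hedge : ∀ e ∈ F, idx e.1 ≤ idx e.2 := fun e he =>
    hidx _ _ (edge_ht_mono (hF he) (hm e (hF he)))
  -- an end in `M`
  let mend : Eg → Pt := fun e => if e.1 ∈ M then e.1 else e.2
  have hmend : ∀ e ∈ F, mend e ∈ M ∧ (mend e = e.1 ∨ mend e = e.2) := by
    intro e he
    by_cases h1 : e.1 ∈ M
    · have : mend e = e.1 := if_pos h1
      rw [this]
      exact ⟨h1, Or.inl rfl⟩
    · have : mend e = e.2 := if_neg h1
      rw [this]
      rcases hM e he with h2 | h2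
      · exact absurd h2 h1
      · exact ⟨h2, Or.inr rfl⟩
  -- jump edges
  set J := F.filter (fun e => ¬ idx e.1 = idx e.2) with hJ
  set G := F.filter (fun e => idx e.1 = idx e.2) with hG
  have hFJ : #G + #J = #F := card_filter_add_card_filter_not _
  have hJc : #J ≤ 3 * #(Pcs P k Q I) := by
    apply jump_le hP ((filter_subset _ _).trans hF) (idx := idx) (mend := mend)
    · exact fun e he => (hmend e (mem_filter.1 he).1).2
    · intro e he
      obtain ⟨h1, h2⟩ := mem_filter.1 he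
      have := hedge e h1
      omega
    · intro e he f hf hef
      exact hidx _ _ (bf_ht hef (hm _ (hF (mem_filter.1 he).1)))
    · intro e he f hf hr
      obtain ⟨h1, _⟩ := mem_filter.1 he
      obtain ⟨h2, _⟩ := mem_filter.1 hf
      exact hnear e h1 f h2 hr _ _ (hmend e h1).1 (hmend f h2).1 (hmend e h1).2 (hmend f h2).2
  -- the strips
  set Bs := G.image (fun e => idx e.1) with hBs
  let Gb : ℕ → Finset Eg := fun b => G.filter (fun e => idx e.1 = b)
  let Mb : ℕ → Finset Pt := fun b => M.filter (fun v => idx v = b)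
  let Tb : ℕ → Finset Pt := fun b => (Tch P k Q I).filter (fun v => idx v = b)
  let Rb : ℕ → Finset Eg := fun b => (Gb b).image (root P k Q I)
  have hGsum : #G = ∑ b ∈ Bs, #(Gb b) :=
    card_eq_sum_card_fiberwise (fun e he => mem_image_of_mem _ he)
  have hGb : ∀ b, ∀ e ∈ Gb b, e ∈ F ∧ idx e.1 = b ∧ idx e.2 = b := by
    intro b e he
    obtain ⟨h1, h2⟩ := mem_filter.1 he
    obtain ⟨h3, h5⟩ := mem_filter.1 h1
    exact ⟨h3, h2, by rw [← h5, h2]⟩
  have hTsum : ∑ b ∈ Bs, #(Tb b) ≤ #(Tch P k Q I) := sum_filter_le Bs _ idx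
  have hRsum : ∑ b ∈ Bs, #(Rb b) ≤ 2 * #(Pcs P k Q I) := by
    apply sum_image_le (β := ℕ) Bs Rb
    · intro b _ a ha
      obtain ⟨e, he, rfl⟩ := mem_image.1 ha
      exact root_mem_Pcs (hF (hGb b e he).1)
    · intro a _ b _ b' _ hb hb'
      obtain ⟨e, he, re⟩ := mem_image.1 hb
      obtain ⟨f, hf, rf⟩ := mem_image.1 hb'
      obtain ⟨e1, e2, e3⟩ := hGb b e he
      obtain ⟨f1, f2, f3⟩ := hGb b' f hf
      have h1 := hnear e e1 f f1 (by rw [re, rf]) _ _ (hmend e e1).1 (hmend f f1).1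
        (hmend e e1).2 (hmend f f1).2
      have h2 : idx (mend e) = b := by
        rcases (hmend e e1).2 with h | h
        · rw [h]; exact e2
        · rw [h]; exact e3
      have h3 : idx (mend f) = b' := by
        rcases (hmend f f1).2 with h | h
        · rw [h]; exact f2
        · rw [h]; exact f3
      omega
  -- the bound in one strip
  have hstrip : ∀ b ∈ Bs, (#(Gb b) : ℝ) ≤ 2 * h * (#(Rb b) + #(Tb b)) := by
    intro b _
    refine strip_boundV hL hm (Gb b) (fun e he => hF (hGb b e he).1) (Tb b) ?_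
      ((filter_subset _ _).trans hTP) ?_ (Mb b) ?_ ?_ (H := (2 * s + 1 : ℝ)) ?_ h12 hh
    · intro e he e' he' v hv l1 l2
      refine mem_filter.2 ⟨hv, ?_⟩
      have a1 := hidx _ _ l1
      have a2 := hidx _ _ l2
      obtain ⟨_, c2, c3⟩ := hGb b e he
      obtain ⟨_, d2, d3⟩ := hGb b e' he'
      omega
    · intro e he
      obtain ⟨h1, h2, h3⟩ := hGb b e he
      exact ⟨mem_filter.2 ⟨ends_subset_Tch hF (fst_mem_ends h1), h2⟩,
        mem_filter.2 ⟨ends_subset_Tch hF (snd_mem_ends h1), h3⟩⟩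
    · intro v hv
      obtain ⟨h1, h2⟩ := mem_filter.1 hv
      exact mem_filter.2 ⟨hMT h1, h2⟩
    · intro e he
      obtain ⟨h1, h2, h3⟩ := hGb b e he
      rcases hM e h1 with h | h
      · exact Or.inl (mem_filter.2 ⟨h, h2⟩)
      · exact Or.inr (mem_filter.2 ⟨h, h3⟩)
    · have := strip_card hP hMP m (H := H) (by omega) b
      rw [hHdef] at this
      have h2 : #(Mb b) ≤ 2 * (2 * s + 1) := this
      exact_mod_cast h2
  have hpc := card_Pcs hL
  have hpc' : (#(Pcs P k Q I) : ℝ) ≤ #(Tch P k Q I) + #(EdBd P k Q I) := by exact_mod_cast hpc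
  have hGle : (#G : ℝ) ≤ 2 * h * (2 * #(Pcs P k Q I) + #(Tch P k Q I)) := by
    have e1 : (#G : ℝ) ≤ ∑ b ∈ Bs, 2 * h * (#(Rb b) + #(Tb b) : ℝ) := by
      rw [hGsum]
      push_cast
      exact sum_le_sum hstrip
    rw [← mul_sum, sum_add_distrib] at e1
    have e3 : (∑ b ∈ Bs, (#(Rb b) : ℝ)) ≤ 2 * #(Pcs P k Q I) := by exact_mod_cast hRsum
    have e4 : (∑ b ∈ Bs, (#(Tb b) : ℝ)) ≤ #(Tch P k Q I) := by exact_mod_cast hTsum
    refine e1.trans (mul_le_mul_of_nonneg_left ?_ (by linarith))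
    linarith
  have hJc' : (#J : ℝ) ≤ 3 * #(Pcs P k Q I) := by exact_mod_cast hJc
  have hFF : (#F : ℝ) = #G + #J := by rw [← hFJ]; push_cast; ring
  have hV0 : (0 : ℝ) ≤ #(EdBd P k Q I) := Nat.cast_nonneg _
  have e5 : 2 * h * (2 * #(Pcs P k Q I) + #(Tch P k Q I) : ℝ) ≤
      2 * h * (3 * (#(Tch P k Q I) + #(EdBd P k Q I))) :=
    mul_le_mul_of_nonneg_left (by linarith) (by linarith)
  have e6 : 12 * (#(Tch P k Q I) + #(EdBd P k Q I) : ℝ) ≤
      h * (#(Tch P k Q I) + #(EdBd P k Q I)) := mul_le_mul_of_nonneg_right h12 hB0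
  rw [hFF]
  linarith

open Classical in
/-- **JOIN**, vertex-cover form, with the free parameter `s` -/
theorem joinV_aux (hP : Good P) (hQ : Q ⊆ P) (hI : I.OrdConnected) {M : Finset Pt}
    (hMT : M ⊆ Tch P k Q I) {F : Finset Eg} (hF : F ⊆ EdIn P k Q I)
    (hM : ∀ e ∈ F, e.1 ∈ M ∨ e.2 ∈ M) {s : ℕ} (hs1 : 1 ≤ s) (hs : #(Sw M I) ≤ s ^ 2) {h : ℝ}
    (h12 : 12 ≤ h) (hh : 3456 * (s : ℝ) ≤ h ^ 3) :
    (#F : ℝ) ≤ 25 * h * (#(Tch P k Q I) + #(EdBd P k Q I)) := by
  set B : ℝ := (#(Tch P k Q I) : ℝ) + #(EdBd P k Q I) with hB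
  have hB0 : 0 ≤ B := by positivity
  have hTB : (#(Tch P k Q I) : ℝ) ≤ B := by
    have h2 : (0 : ℝ) ≤ #(EdBd P k Q I) := Nat.cast_nonneg _
    linarith
  set R := M.filter (fun y => s < #(RankAux.Par M I y)) with hR
  have hs1' : (1 : ℝ) ≤ s := by exact_mod_cast hs1
  -- few points of high degree
  have hRc : #R * s ≤ 2 * s ^ 2 := by
    calc #R * s = ∑ y ∈ R, s := by rw [sum_const, smul_eq_mul]
      _ ≤ ∑ y ∈ R, #(RankAux.Par M I y) := sum_le_sum fun y hy => (mem_filter.1 hy).2.le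
      _ ≤ ∑ y ∈ M, #(RankAux.Par M I y) := sum_le_sum_of_subset (filter_subset _ _)
      _ ≤ 2 * #(Sw M I) := RankAux.sum_Par M I
      _ ≤ 2 * s ^ 2 := by omega
  have hRc' : #R ≤ 2 * s := by
    have h1 : #R * s ≤ (2 * s) * s := by rw [mul_assoc, ← sq]; exact hRc
    exact Nat.le_of_mul_le_mul_right h1 (by omega)
  have hRr : (#R : ℝ) ≤ 2 * s := by exact_mod_cast hRc'
  have hRM : R ⊆ M := filter_subset _ _
  set F1 := F.filter (fun e => e.1 ∈ R ∨ e.2 ∈ R) with hF1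
  set F2 := F.filter (fun e => ¬ (e.1 ∈ R ∨ e.2 ∈ R)) with hF2
  have hcF : #F1 + #F2 = #F := card_filter_add_card_filter_not _
  have b1 := H882.cross_principle_bip hP hQ hI (F := F1) ((filter_subset _ _).trans hF)
    (R := R) (T := Tch P k Q I) (hRM.trans hMT)
    (fun e he => ⟨ends_subset_Tch hF (fst_mem_ends (mem_filter.1 he).1),
      ends_subset_Tch hF (snd_mem_ends (mem_filter.1 he).1)⟩)
    (fun e he => (mem_filter.1 he).2)
  rw [← hB] at b1
  have b2 : ((#R : ℝ) * #(Tch P k Q I)) ^ (1 / 3 : ℝ) * B ^ (2 / 3 : ℝ) ≤ h * B := by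
    apply rpow_third_mul (by positivity) hB0 (by linarith)
    apply mul_le_mul _ hTB (Nat.cast_nonneg _) (by positivity)
    linarith
  have b3 := sparseV hP hQ hI (F := F2) ((filter_subset _ _).trans hF) (M := M \ R) (by
    intro e he
    obtain ⟨c1, c2⟩ := mem_filter.1 he
    rcases hM e c1 with h1 | h1
    · exact Or.inl (mem_sdiff.2 ⟨h1, fun h' => c2 (Or.inl h')⟩)
    · exact Or.inr (mem_sdiff.2 ⟨h1, fun h' => c2 (Or.inr h')⟩))
    (sdiff_subset.trans hMT) (s := s) (by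
    intro y hy
    obtain ⟨c1, c2⟩ := mem_sdiff.1 hy
    refine (card_le_card (Par_mono (I := I) sdiff_subset)).trans ?_
    by_contra hcon
    exact c2 (mem_filter.2 ⟨c1, not_le.1 hcon⟩)) (h := h) h12 (by linarith)
  rw [← hB] at b3
  have hcF' : (#F : ℝ) = #F1 + #F2 := by rw [← hcF]; push_cast; ring
  have b4 : 12 * B ≤ h * B := mul_le_mul_of_nonneg_right h12 hB0
  rw [hcF']
  linarith

/-- **JOIN**, vertex-cover form -/
theorem joinV : ∃ C : ℝ, 1 ≤ C ∧ ∀ (P : Finset Pt) (k : ℕ) (Q : Finset Pt) (I : Set ℝ), Good P →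
    Q ⊆ P → I.OrdConnected → ∀ M ⊆ Tch P k Q I, ∀ F ⊆ EdIn P k Q I,
    (∀ e ∈ F, e.1 ∈ M ∨ e.2 ∈ M) →
    (#F : ℝ) ^ 6 ≤ C * (#(Tch P k Q I) + #(EdBd P k Q I) : ℝ) ^ 6 * (#(Sw M I) + 1) := by
  classical
  refine ⟨25 ^ 6 * 3456 ^ 2 * 4, by norm_num, ?_⟩
  intro P k Q I hP hQ hI M hMT F hF hM
  set N := #(Sw M I) with hN
  set s := Nat.sqrt N + 1 with hs
  have hsM : N ≤ s ^ 2 := by
    have := Nat.lt_succ_sqrt N
    rw [sq]
    exact this.le
  have hs2 : s ^ 2 ≤ 4 * (N + 1) := by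
    have h1 : Nat.sqrt N * Nat.sqrt N ≤ N := Nat.sqrt_le N
    rw [hs]
    nlinarith [Nat.sqrt_le_self N]
  have hs2' : (s : ℝ) ^ 2 ≤ 4 * (N + 1) := by exact_mod_cast hs2
  have hs1 : 1 ≤ s := by omega
  have hs1' : (1 : ℝ) ≤ s := by exact_mod_cast hs1
  set h : ℝ := (3456 * (s : ℝ)) ^ (1 / 3 : ℝ) with hh
  have h0 : 0 ≤ h := Real.rpow_nonneg (by positivity) _
  have h3 : h ^ 3 = 3456 * s := by
    rw [hh, ← Real.rpow_natCast, ← Real.rpow_mul (by positivity)]
    norm_num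
  have h12 : 12 ≤ h := by
    apply le_of_pow_le_pow_left₀ (n := 3) (by norm_num) h0
    rw [h3]
    linarith
  have key := joinV_aux hP hQ hI hMT hF hM hs1 hsM h12 h3.ge
  set B : ℝ := (#(Tch P k Q I) : ℝ) + #(EdBd P k Q I) with hB
  have hB0 : 0 ≤ B := by positivity
  calc (#F : ℝ) ^ 6 ≤ (25 * h * B) ^ 6 := pow_le_pow_left₀ (Nat.cast_nonneg _) key 6
    _ = 25 ^ 6 * (h ^ 3) ^ 2 * B ^ 6 := by ring
    _ = 25 ^ 6 * 3456 ^ 2 * (s : ℝ) ^ 2 * B ^ 6 := by rw [h3]; ring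
    _ ≤ 25 ^ 6 * 3456 ^ 2 * (4 * (N + 1)) * B ^ 6 := by gcongr
    _ = 25 ^ 6 * 3456 ^ 2 * 4 * B ^ 6 * (N + 1) := by ring

end Vale.Agent.P065.H537
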