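import Vale.Agent.P065.H626.KillQ

/-!
# P065, upper bound, block [EXTRACT] (helper537): the point-level data at one resolution

`PreC`: output of CHERRY + FLAG + P2 + SEL + ONERES in chart coordinates (`K`-losses), without the
dimension condition; `Dim q e`: the dimension condition; `StExtract`: both together give helper626's
`GridQ`; `StPreKill`: they are contradictory (`preKill_of`, from `StExtract` and `StGridKillQ`).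
-/

set_option autoImplicit false

namespace Vale.Agent.P065.H537

open Finset Vale.Agent.P065.UB

/-- the box of direction `al` -/
def Bx (al t r s₀ h₀ : ℝ) (q : ℝ × ℝ) : Prop :=
  |q.1 + al * q.2 - s₀| ≤ t ∧ |q.2 - h₀| ≤ r

open Classical in
/-- **PREC**.  `Q0` = all points (chart image), `G` = used points, `A0` = multipliers (one per
apex), `E` = used pairs (apex, point), `om a q` = window of the pair, `R w` = rich points of the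
window, `zc a w` = position of the window `w` in the class `a`; `n` = order, `m` = points per cell,
`δ` = resolution. -/
structure PreC (K n m δ : ℝ) {ι : Type} (Q0 G : Finset (ℝ × ℝ)) (A0 : Finset ℝ)
    (E : Finset (ℝ × (ℝ × ℝ))) (om : ℝ → ℝ × ℝ → ι) (W : Finset ι) (R : ι → Finset (ℝ × ℝ))
    (zc : ℝ → ι → ℝ) : Prop where
  hK : 2 ≤ K
  δ0 : 0 < δ
  δ1 : δ ≤ 1
  n1 : 1 ≤ n
  m0 : 0 < m
  nm : n ^ 4 ≤ m
  subG : G ⊆ Q0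
  box : ∀ q ∈ G, |q.1| ≤ 1 ∧ |q.2| ≤ 1
  cQ : (#Q0 : ℝ) ≤ K * n ^ 2 * m
  memE : ∀ p ∈ E, p.1 ∈ A0 ∧ p.2 ∈ G
  cE : n ^ 3 * m ^ 2 ≤ K * #E
  cA : (#A0 : ℝ) ≤ K * n * m
  absA : ∀ a ∈ A0, 1 ≤ K * |a| ∧ |a| ≤ K
  omW : ∀ p ∈ E, om p.1 p.2 ∈ W
  omR : ∀ p ∈ E, p.2 ∈ R (om p.1 p.2)
  cW : (#W : ℝ) ≤ K * n ^ 2
  cR : ∀ w ∈ W, (#(R w) : ℝ) ≤ K * n * m
  /-- an apex uses few windows -/
  touch : ∀ a ∈ A0, (#{w ∈ W | ∃ q ∈ G, (a, q) ∈ E ∧ om a q = w} : ℝ) ≤ K * n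
  /-- a point sees few apexes through one window -/
  flag : ∀ q ∈ G, ∀ w ∈ W, (#{a ∈ A0 | (a, q) ∈ E ∧ om a q = w} : ℝ) ≤ K * m
  /-- few points in a cell -/
  cell : ∀ x y : ℝ, (#{q ∈ G | |q.1 - x| ≤ δ ∧ |q.2 - y| ≤ δ} : ℝ) ≤ K * m
  covX : (#(G.image fun q => ⌊q.1 / δ⌋) : ℝ) ≤ K * n
  covY : (#(G.image fun q => ⌊q.2 / δ⌋) : ℝ) ≤ K * n
  near : ∀ p ∈ E, |p.2.1 + p.1 * p.2.2 - zc p.1 (om p.1 p.2)| ≤ δ
  /-- (STAR) in the chart -/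
  star : ∀ al t r s₀ h₀ : ℝ, |al| ≤ K → δ ≤ t → δ ≤ r →
    ∑ w ∈ W, (#{q ∈ R w | Bx al t r s₀ h₀ q} : ℝ) ^ 3 ≤
      K * (n * m * (#{q ∈ Q0 | Bx al t r s₀ h₀ q} : ℝ) ^ 2 + (n ^ 2 * m) ^ 2)

open Classical in
/-- **DIM**: a box of side `r` is light or `(δ / r) ^ q n ^ (q + 1) ≤ 1` -/
def Dim (q e : ℕ) (K n m δ : ℝ) (G : Finset (ℝ × ℝ)) : Prop :=
  ∀ x y r : ℝ, δ ≤ r → r ≤ 1 → n ^ (q + 1) * δ ^ q ≤ r ^ q ∨
    K ^ e * (#{p ∈ G | |p.1 - x| ≤ 2 * r ∧ |p.2 - y| ≤ 2 * r} : ℝ) ≤ n ^ 2 * m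

/-- **[EXTRACT]** -/
def StExtract : Prop :=
  ∃ c : ℕ, ∀ (c₀ e q : ℕ), c * (c₀ + 1) ≤ e → ∀ (K n m δ : ℝ) (ι : Type)
    (Q0 G : Finset (ℝ × ℝ)) (A0 : Finset ℝ) (E : Finset (ℝ × (ℝ × ℝ))) (om : ℝ → ℝ × ℝ → ι)
    (W : Finset ι) (R : ι → Finset (ℝ × ℝ)) (zc : ℝ → ι → ℝ),
    PreC K n m δ Q0 G A0 E om W R zc → Dim q e K n m δ G → K ^ c ≤ n →
    ∃ (Y : Finset (ℝ × ℝ)) (A : Finset ℝ) (S : ℝ → Finset ℝ) (C : ℝ → ℝ → Finset (ℝ × ℝ)),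
      A ⊆ A0 ∧ H626.GridQ q c₀ (K ^ c) n δ m Y Q0 A S C

/-- no point-level data at one resolution satisfying the dimension condition: `e` is absolute, it
comes before `q` -/
def StPreKill : Prop :=
  ∃ e : ℕ, ∀ q : ℕ, 1 ≤ q → ∃ c₁ : ℕ, ∀ (K n m δ : ℝ) (ι : Type) (Q0 G : Finset (ℝ × ℝ))
    (A0 : Finset ℝ) (E : Finset (ℝ × (ℝ × ℝ))) (om : ℝ → ℝ × ℝ → ι) (W : Finset ι)
    (R : ι → Finset (ℝ × ℝ)) (zc : ℝ → ι → ℝ),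
    PreC K n m δ Q0 G A0 E om W R zc → Dim q e K n m δ G → K ^ c₁ ≤ n → False

theorem preKill_of (h1 : StExtract) (h2 : H626.StGridKillQ) : StPreKill := by
  obtain ⟨c, h1⟩ := h1
  obtain ⟨c₀, h2⟩ := h2
  refine ⟨c * (c₀ + 1), fun q hq => ?_⟩
  obtain ⟨c₁, h2⟩ := h2 q hq
  refine ⟨c * (c₁ + 1), ?_⟩
  intro K n m δ ι Q0 G A0 E om W R zc hP hd hn
  have hK1 : 1 ≤ K := by linarith [hP.hK]
  have hn1 : K ^ c ≤ n := le_trans (pow_le_pow_right₀ hK1 (Nat.le_mul_of_pos_right c (by omega))) hn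
  obtain ⟨Y, A, S, C, _, hG⟩ := h1 c₀ _ q le_rfl K n m δ ι Q0 G A0 E om W R zc hP hd hn1
  refine h2 (K ^ c) n δ m Y Q0 A S C hG ?_
  rw [← pow_mul]
  exact le_trans (pow_le_pow_right₀ hK1 (Nat.mul_le_mul_left c (by omega))) hn

end Vale.Agent.P065.H537
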