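import Vale.Agent.P065.H183.JView

/-!
# P065, upper bound: restriction of a `JView` to a dense set of active points (helper537)

`act`: most of the flags live at active points.  `restrict`: for a set `S` of active points with
`#Q ≤ D #S`, the windows `w` with `#(R w ∩ S) ≥ #Q / (2 K D² lam)` and the sets `R w ∩ S` form again
a `JView` with the same `Q`, `lam` and `I`, constant `2 K D²`.
-/

set_option autoImplicit false

namespace Vale.Agent.P065.H537

open Finset Vale.Agent.P065.UB Vale.Agent.P065.H183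

open Classical in
/-- double counting of the flags -/
theorem sum_flags {W : Finset ℕ} {R : ℕ → Finset Pt} (S : Finset Pt) :
    ∑ w ∈ W, #(R w ∩ S) = ∑ x ∈ S, #{w ∈ W | x ∈ R w} := by
  have h1 : ∀ w ∈ W, #(R w ∩ S) = ∑ x ∈ S, if x ∈ R w then 1 else 0 := by
    intro w _
    rw [sum_boole, inter_comm]
    simp only [Nat.cast_id]
    congr 1
  rw [sum_congr rfl h1, sum_comm]
  apply sum_congr rfl
  intro x _
  rw [sum_boole]
  simp only [Nat.cast_id]

open Classical in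
/-- the windows with many rich points in `S` -/
noncomputable def Wd (c lam : ℝ) (Q : Finset Pt) (W : Finset ℕ) (R : ℕ → Finset Pt)
    (S : Finset Pt) : Finset ℕ := {w ∈ W | (#Q : ℝ) ≤ c * lam * #(R w ∩ S)}

open Classical in
theorem mem_Wd {c lam : ℝ} {Q : Finset Pt} {W : Finset ℕ} {R : ℕ → Finset Pt} {S : Finset Pt}
    {w : ℕ} : w ∈ Wd c lam Q W R S ↔ w ∈ W ∧ (#Q : ℝ) ≤ c * lam * #(R w ∩ S) := by
  unfold Wd
  rw [mem_filter]

open Classical in
/-- the flags in dense windows: if `S` carries many flags, then so do the dense windows -/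
theorem sum_Wd {K lam c : ℝ} {Q : Finset Pt} {W : Finset ℕ} {R : ℕ → Finset Pt} {S : Finset Pt}
    (hlam : 0 < lam) (hc : 0 < c) (cardW : (#W : ℝ) ≤ K * lam ^ 2) :
    ∑ w ∈ W, (#(R w ∩ S) : ℝ) ≤
      ∑ w ∈ Wd c lam Q W R S, (#(R w ∩ S) : ℝ) + K * lam * #Q / c := by
  have hsplit : ∑ w ∈ W, (#(R w ∩ S) : ℝ) = ∑ w ∈ Wd c lam Q W R S, (#(R w ∩ S) : ℝ) +
      ∑ w ∈ W.filter (fun w => ¬ (#Q : ℝ) ≤ c * lam * #(R w ∩ S)), (#(R w ∩ S) : ℝ) := by
    unfold Wd
    rw [sum_filter_add_sum_filter_not]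
  rw [hsplit]
  have h1 : ∑ w ∈ W.filter (fun w => ¬ (#Q : ℝ) ≤ c * lam * #(R w ∩ S)), (#(R w ∩ S) : ℝ) ≤
      ∑ w ∈ W.filter (fun w => ¬ (#Q : ℝ) ≤ c * lam * #(R w ∩ S)), (#Q : ℝ) / (c * lam) := by
    apply sum_le_sum
    intro w hw
    have h2 := (mem_filter.1 hw).2
    rw [not_le] at h2
    rw [le_div_iff₀ (by positivity)]
    linarith
  rw [sum_const, nsmul_eq_mul] at h1
  have h3 : (#(W.filter (fun w => ¬ (#Q : ℝ) ≤ c * lam * #(R w ∩ S))) : ℝ) ≤ K * lam ^ 2 :=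
    le_trans (by exact_mod_cast card_filter_le _ _) cardW
  have h4 : (#(W.filter (fun w => ¬ (#Q : ℝ) ≤ c * lam * #(R w ∩ S))) : ℝ) *
      ((#Q : ℝ) / (c * lam)) ≤ K * lam ^ 2 * ((#Q : ℝ) / (c * lam)) :=
    mul_le_mul_of_nonneg_right h3 (by positivity)
  have h5 : K * lam ^ 2 * ((#Q : ℝ) / (c * lam)) = K * lam * #Q / c := by
    field_simp
  linarith

open Classical in
/-- **RESTRICT** -/
theorem restrict {K lam D : ℝ} {Q : Finset Pt} {W : Finset ℕ} {I : ℕ → Set ℝ}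
    {R : ℕ → Finset Pt} (h : JView K lam Q W I R) (hQ : Q.Nonempty) (hD : 1 ≤ D) {S : Finset Pt}
    (hflag : lam * #Q ≤ D * ∑ w ∈ W, (#(R w ∩ S) : ℝ)) :
    JView (2 * K * D) lam Q (Wd (2 * K * D) lam Q W R S) I (fun w => R w ∩ S) := by
  have hK := h.two
  have hlam := h.one
  have hlam0 : 0 < lam := by linarith
  have hQ0 : (0 : ℝ) < #Q := by exact_mod_cast card_pos.2 hQ
  have hc0 : 0 < 2 * K * D := by positivity
  have hKD : K ≤ 2 * K * D := by nlinarith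
  have hsub : Wd (2 * K * D) lam Q W R S ⊆ W := fun w hw => (mem_Wd.1 hw).1
  have hsum := sum_Wd (Q := Q) (R := R) (S := S) hlam0 hc0 h.cardW
  have hup : ∑ w ∈ Wd (2 * K * D) lam Q W R S, (#(R w ∩ S) : ℝ) ≤
      #(Wd (2 * K * D) lam Q W R S) * (K * #Q / lam) := by
    rw [← nsmul_eq_mul, ← sum_const]
    apply sum_le_sum
    intro w hw
    have h1 := h.cardR w (hsub hw)
    have h2 : (#(R w ∩ S) : ℝ) ≤ #(R w) := by exact_mod_cast card_le_card inter_subset_left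
    rw [le_div_iff₀ hlam0]
    nlinarith
  have hrest : K * lam * #Q / (2 * K * D) = lam * #Q / (2 * D) := by
    have hK0 : K ≠ 0 := by linarith
    field_simp
  rw [hrest] at hsum
  have hkey : lam * #Q ≤ 2 * D * (#(Wd (2 * K * D) lam Q W R S) * (K * #Q / lam)) := by
    have h1 : D * ∑ w ∈ W, (#(R w ∩ S) : ℝ) ≤
        D * (#(Wd (2 * K * D) lam Q W R S) * (K * #Q / lam) + lam * #Q / (2 * D)) :=
      mul_le_mul_of_nonneg_left (by linarith) (by linarith)
    have h2 : D * (lam * #Q / (2 * D)) = lam * #Q / 2 := by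
      field_simp
    rw [mul_add, h2] at h1
    linarith
  refine
    { two := hK.trans hKD
      one := hlam
      xinj := h.xinj
      conn := fun w hw => h.conn w (hsub hw)
      disj := fun w hw w' hw' => h.disj w (hsub hw) w' (hsub hw')
      cardW := ?_
      cardW' := ?_
      subR := fun w hw => inter_subset_left.trans (h.subR w (hsub hw))
      cardR := ?_
      cardR' := fun w hw => (mem_Wd.1 hw).2
      touch := ?_
      join := ?_
      star := ?_ }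
  · calc (#(Wd (2 * K * D) lam Q W R S) : ℝ) ≤ #W := by exact_mod_cast card_le_card hsub
      _ ≤ K * lam ^ 2 := h.cardW
      _ ≤ 2 * K * D * lam ^ 2 := mul_le_mul_of_nonneg_right hKD (by positivity)
  · have h1 : 2 * D * (#(Wd (2 * K * D) lam Q W R S) * (K * #Q / lam)) =
        (2 * K * D * #(Wd (2 * K * D) lam Q W R S)) * (#Q / lam) := by ring
    have h2 : lam * #Q = lam ^ 2 * (#Q / lam) := by field_simp
    rw [h1, h2] at hkey
    exact le_of_mul_le_mul_right hkey (by positivity)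
  · intro w hw
    have h1 : (#(R w ∩ S) : ℝ) ≤ #(R w) := by exact_mod_cast card_le_card inter_subset_left
    calc lam * (#(R w ∩ S) : ℝ) ≤ lam * #(R w) := mul_le_mul_of_nonneg_left h1 hlam0.le
      _ ≤ K * #Q := h.cardR w (hsub hw)
      _ ≤ 2 * K * D * #Q := mul_le_mul_of_nonneg_right hKD hQ0.le
  · intro x hx
    have h1 : #{w ∈ Wd (2 * K * D) lam Q W R S | x ∈ R w ∩ S} ≤ #{w ∈ W | x ∈ R w} := by
      apply card_le_card
      intro w hw
      obtain ⟨h2, h3⟩ := mem_filter.1 hw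
      exact mem_filter.2 ⟨hsub h2, (mem_inter.1 h3).1⟩
    calc (#{w ∈ Wd (2 * K * D) lam Q W R S | x ∈ R w ∩ S} : ℝ) ≤ #{w ∈ W | x ∈ R w} := by
          exact_mod_cast h1
      _ ≤ K * lam := h.touch x hx
      _ ≤ 2 * K * D * lam := mul_le_mul_of_nonneg_right hKD hlam0.le
  · intro w hw M hM
    have h1 := h.join w (hsub hw) M (hM.trans inter_subset_left)
    refine h1.trans ?_
    apply mul_le_mul_of_nonneg_right _ (by positivity)
    exact mul_le_mul_of_nonneg_right hKD (by positivity)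
  · intro S' H hH Z hZ
    have h1 := h.star S' H hH Z hZ
    have h2 : lam * ∑ w ∈ Wd (2 * K * D) lam Q W R S, (#(R w ∩ S ∩ Z) : ℝ) ^ 3 ≤
        lam * ∑ w ∈ W, (#(R w ∩ Z) : ℝ) ^ 3 := by
      apply mul_le_mul_of_nonneg_left _ hlam0.le
      calc ∑ w ∈ Wd (2 * K * D) lam Q W R S, (#(R w ∩ S ∩ Z) : ℝ) ^ 3
          ≤ ∑ w ∈ Wd (2 * K * D) lam Q W R S, (#(R w ∩ Z) : ℝ) ^ 3 := by
            apply sum_le_sum
            intro w _
            have h3 : #(R w ∩ S ∩ Z) ≤ #(R w ∩ Z) :=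
              card_le_card (inter_subset_inter_right inter_subset_left)
            gcongr
        _ ≤ ∑ w ∈ W, (#(R w ∩ Z) : ℝ) ^ 3 :=
            sum_le_sum_of_subset_of_nonneg hsub fun _ _ _ => by positivity
    refine (h2.trans h1).trans ?_
    apply mul_le_mul_of_nonneg_right _ (by positivity)
    exact mul_le_mul_of_nonneg_right hKD (by positivity)

open Classical in
/-- the active points -/
noncomputable def Act (K lam : ℝ) (Q : Finset Pt) (W : Finset ℕ) (R : ℕ → Finset Pt) : Finset Pt :=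
  {x ∈ Q | lam ≤ 2 * K ^ 2 * #{w ∈ W | x ∈ R w}}

open Classical in
theorem mem_Act {K lam : ℝ} {Q : Finset Pt} {W : Finset ℕ} {R : ℕ → Finset Pt} {x : Pt} :
    x ∈ Act K lam Q W R ↔ x ∈ Q ∧ lam ≤ 2 * K ^ 2 * #{w ∈ W | x ∈ R w} := by
  unfold Act
  rw [mem_filter]

open Classical in
/-- the flags of a set of active points -/
theorem flags_of_act {K lam D : ℝ} {Q : Finset Pt} {W : Finset ℕ} {R : ℕ → Finset Pt}
    (hlam : 0 ≤ lam) {S : Finset Pt} (hS : S ⊆ Act K lam Q W R) (hD : 0 ≤ D)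
    (hd : (#Q : ℝ) ≤ D * #S) :
    lam * #Q ≤ (2 * K ^ 2 * D) * ∑ w ∈ W, (#(R w ∩ S) : ℝ) := by
  have h1 : ∑ w ∈ W, (#(R w ∩ S) : ℝ) = ∑ x ∈ S, (#{w ∈ W | x ∈ R w} : ℝ) := by
    exact_mod_cast sum_flags S
  have h2 : (#S : ℝ) * lam ≤ 2 * K ^ 2 * ∑ w ∈ W, (#(R w ∩ S) : ℝ) := by
    rw [h1, mul_sum, ← nsmul_eq_mul, ← sum_const]
    exact sum_le_sum fun x hx => (mem_Act.1 (hS hx)).2
  calc lam * #Q ≤ lam * (D * #S) := mul_le_mul_of_nonneg_left hd hlam
    _ = D * ((#S : ℝ) * lam) := by ring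
    _ ≤ D * (2 * K ^ 2 * ∑ w ∈ W, (#(R w ∩ S) : ℝ)) := mul_le_mul_of_nonneg_left h2 hD
    _ = (2 * K ^ 2 * D) * ∑ w ∈ W, (#(R w ∩ S) : ℝ) := by ring

open Classical in
/-- **RESTRICT**, for a dense set of active points -/
theorem restrict_act {K lam D : ℝ} {Q : Finset Pt} {W : Finset ℕ} {I : ℕ → Set ℝ}
    {R : ℕ → Finset Pt} (h : JView K lam Q W I R) (hQ : Q.Nonempty) (hD : 1 ≤ D) {S : Finset Pt}
    (hS : S ⊆ Act K lam Q W R) (hd : (#Q : ℝ) ≤ D * #S) :
    JView (4 * K ^ 3 * D) lam Q (Wd (4 * K ^ 3 * D) lam Q W R S) I (fun w => R w ∩ S) := by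
  have hK := h.two
  have h1 := flags_of_act (by linarith [h.one]) hS (by linarith) hd
  have h2 : 1 ≤ 2 * K ^ 2 * D := by nlinarith [mul_le_mul hK hK (by norm_num) (by linarith)]
  have h3 := restrict h hQ h2 h1
  have h4 : 2 * K * (2 * K ^ 2 * D) = 4 * K ^ 3 * D := by ring
  rw [h4] at h3
  exact h3

open Classical in
/-- a positive proportion of the points is active -/
theorem card_Act {K lam : ℝ} {Q : Finset Pt} {W : Finset ℕ} {I : ℕ → Set ℝ}
    {R : ℕ → Finset Pt} (h : JView K lam Q W I R) : (#Q : ℝ) ≤ 2 * K ^ 3 * #(Act K lam Q W R) := by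
  have hK := h.two
  have hlam := h.one
  have hlam0 : 0 < lam := by linarith
  -- all flags
  have h1 : ∑ w ∈ W, (#(R w ∩ Q) : ℝ) = ∑ x ∈ Q, (#{w ∈ W | x ∈ R w} : ℝ) := by
    exact_mod_cast sum_flags Q
  have h2 : lam * #Q ≤ K ^ 2 * ∑ w ∈ W, (#(R w ∩ Q) : ℝ) := by
    have h3 : (#W : ℝ) * #Q ≤ K * lam * ∑ w ∈ W, (#(R w ∩ Q) : ℝ) := by
      rw [mul_sum, ← nsmul_eq_mul, ← sum_const]
      apply sum_le_sum
      intro w hw
      rw [inter_eq_left.2 (h.subR w hw)]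
      exact h.cardR' w hw
    have h4 : lam ^ 2 * #Q ≤ K * (K * lam * ∑ w ∈ W, (#(R w ∩ Q) : ℝ)) := by
      calc lam ^ 2 * #Q ≤ (K * #W) * #Q :=
            mul_le_mul_of_nonneg_right h.cardW' (Nat.cast_nonneg _)
        _ = K * ((#W : ℝ) * #Q) := by ring
        _ ≤ _ := mul_le_mul_of_nonneg_left h3 (by linarith)
    have h5 : lam * (lam * #Q) ≤ lam * (K ^ 2 * ∑ w ∈ W, (#(R w ∩ Q) : ℝ)) := by
      calc lam * (lam * #Q) = lam ^ 2 * #Q := by ring
        _ ≤ K * (K * lam * ∑ w ∈ W, (#(R w ∩ Q) : ℝ)) := h4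
        _ = _ := by ring
    exact le_of_mul_le_mul_left h5 hlam0
  -- split
  have h6 : ∑ x ∈ Q, (#{w ∈ W | x ∈ R w} : ℝ) = ∑ x ∈ Act K lam Q W R, (#{w ∈ W | x ∈ R w} : ℝ) +
      ∑ x ∈ Q.filter (fun x => ¬ lam ≤ 2 * K ^ 2 * #{w ∈ W | x ∈ R w}),
        (#{w ∈ W | x ∈ R w} : ℝ) := by
    unfold Act
    rw [sum_filter_add_sum_filter_not]
  have h7 : ∑ x ∈ Act K lam Q W R, (#{w ∈ W | x ∈ R w} : ℝ) ≤
      #(Act K lam Q W R) * (K * lam) := by
    rw [← nsmul_eq_mul, ← sum_const]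
    exact sum_le_sum fun x hx => h.touch x (mem_Act.1 hx).1
  have h8 : K ^ 2 * ∑ x ∈ Q.filter (fun x => ¬ lam ≤ 2 * K ^ 2 * #{w ∈ W | x ∈ R w}),
      (#{w ∈ W | x ∈ R w} : ℝ) ≤ #Q * (lam / 2) := by
    calc K ^ 2 * ∑ x ∈ Q.filter (fun x => ¬ lam ≤ 2 * K ^ 2 * #{w ∈ W | x ∈ R w}),
          (#{w ∈ W | x ∈ R w} : ℝ)
        ≤ ∑ x ∈ Q.filter (fun x => ¬ lam ≤ 2 * K ^ 2 * #{w ∈ W | x ∈ R w}), lam / 2 := by
          rw [mul_sum]
          apply sum_le_sum
          intro x hx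
          have := (mem_filter.1 hx).2
          rw [not_le] at this
          linarith
      _ = #(Q.filter (fun x => ¬ lam ≤ 2 * K ^ 2 * #{w ∈ W | x ∈ R w})) * (lam / 2) := by
          rw [sum_const, nsmul_eq_mul]
      _ ≤ #Q * (lam / 2) := by
          apply mul_le_mul_of_nonneg_right _ (by positivity)
          exact_mod_cast card_filter_le _ _
  rw [h1, h6, mul_add] at h2
  have h9 : K ^ 2 * ∑ x ∈ Act K lam Q W R, (#{w ∈ W | x ∈ R w} : ℝ) ≤
      K ^ 2 * (#(Act K lam Q W R) * (K * lam)) := mul_le_mul_of_nonneg_left h7 (by positivity)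
  have h10 : lam * (#Q : ℝ) ≤ lam * (2 * K ^ 3 * #(Act K lam Q W R)) := by
    have : K ^ 2 * (#(Act K lam Q W R) * (K * lam)) = lam * (K ^ 3 * #(Act K lam Q W R)) := by
      ring
    rw [this] at h9
    linarith
  exact le_of_mul_le_mul_left h10 hlam0

end Vale.Agent.P065.H537
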