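import Vale.Agent.P065.H537.JoinV
import Vale.Agent.P065.UB.View.Out

/-!
# P065, upper bound: the literal Prop `StJoin` (helper537)
-/

set_option autoImplicit false

namespace Vale.Agent.P065.H537

open Vale.Agent.P065.UB

/-- **[JOIN]**, literal form of `UB/View/Out.lean` -/
theorem stJoin : View.StJoin := joinV

end Vale.Agent.P065.H537
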