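import Vale.Agent.P065.H882.XPR2
import Vale.Agent.P065.UB.Heavy

/-!
# P065, upper bound: crossings inside a strip (helper537)

Localisation of `pair_count` and of the number of crossings to a strip of slope `m`, where `m` is
at most the slope of every edge: the heights of slope `m` increase along the pieces.
-/

set_option autoImplicit false

namespace Vale.Agent.P065.H537

open Finset UB

variable {P : Finset Pt} {k : ℕ} {Q : Finset Pt} {I : Set ℝ}

theorem edge_ht_mono {e : Eg} (he : e ∈ EdIn P k Q I) {m : ℝ} (hm : m ≤ slE e) :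
    ht m e.1 ≤ ht m e.2 := by
  have h1 := ht_step (EdIn.lt he) m
  have h2 := EdIn.lt he
  nlinarith

theorem bf_ht {e g : Eg} {m : ℝ} (h : Bf P k Q I e g) (hm : m ≤ slE e) :
    ht m e.2 ≤ ht m g.1 := by
  have h1 := h.range
  have h2 := h.right g.1.1 le_rfl
  rw [Ln_fst] at h2
  have h3 := Ln_snd e (EdIn.lt h.mem_left)
  have h4 := Ln_sub e g.1.1 e.2.1
  unfold ht
  nlinarith

/-- position of a piece between two of its edges -/
theorem pos_between (hP : Good P) {e e' g g' : Eg} {m : ℝ} (hg : NxE P k Q I g g')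
    (r : root P k Q I e = root P k Q I g) (r' : root P k Q I e' = root P k Q I g)
    (h1 : slE e < slE g') (h2 : slE g < slE e') (hm : ∀ e ∈ EdIn P k Q I, m ≤ slE e) :
    ht m e.2 ≤ ht m g.2 ∧ ht m g.2 ≤ ht m e'.1 := by
  have hr : root P k Q I g' = root P k Q I g := by
    have := root_NxE hP hg
    rw [this]
  constructor
  · rcases compar hP (r.trans hr.symm) with h | h | h
    · rw [h] at h1
      exact absurd h1 (lt_irrefl _)
    · have := bf_ht h (hm _ h.mem_left)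
      rw [hg.2.2.1]
      exact this
    · have := h.slope
      linarith
  · rcases compar hP r' with h | h | h
    · rw [h] at h2
      exact absurd h2 (lt_irrefl _)
    · have := h.slope
      linarith
    · exact bf_ht h (hm _ h.mem_left)

open Classical in
/-- the number of crossings of two given pieces inside a strip -/
theorem pair_count_loc (hL : Loc P k Q I) {a c : Eg} (hne : a ≠ c) {m : ℝ}
    (hm : ∀ e ∈ EdIn P k Q I, m ≤ slE e) (G : Finset Eg) (hG : G ⊆ EdIn P k Q I)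
    (S : Finset Pt) (hS : ∀ e ∈ G, ∀ e' ∈ G, ∀ v ∈ Tch P k Q I, ht m e.2 ≤ ht m v →
      ht m v ≤ ht m e'.1 → v ∈ S) (Z : Finset ℝ)
    (hZ : ∀ z ∈ Z, ∃ e ∈ G, ∃ f ∈ G, root P k Q I e = a ∧ root P k Q I f = c ∧
      e.1.1 ≤ z ∧ z ≤ e.2.1 ∧ f.1.1 ≤ z ∧ z ≤ f.2.1 ∧ Ln e z = Ln f z) :
    #Z ≤ 2 + #((SwP P k Q I a c).filter (fun pq => pq.1 ∈ S ∧ pq.2 ∈ S)) := by
  have hP := hL.good
  by_cases hZ0 : Z.Nonempty
  swap
  · rw [not_nonempty_iff_eq_empty] at hZ0
    rw [hZ0, card_empty]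
    omega
  choose! e he0 f hf0 ra rc x1 x2 x3 x4 hL' using hZ
  have he : ∀ z ∈ Z, e z ∈ EdIn P k Q I := fun z hz => hG (he0 z hz)
  have hf : ∀ z ∈ Z, f z ∈ EdIn P k Q I := fun z hz => hG (hf0 z hz)
  -- slopes are ordered
  have ord : ∀ z1 ∈ Z, ∀ z2 ∈ Z, z1 < z2 →
      max (slE (e z1)) (slE (f z1)) ≤ min (slE (e z2)) (slE (f z2)) := by
    intro z1 h1 z2 h2 h12
    have c1 := chord hP (e1 := e z1) (e2 := e z2) (z1 := z1) (z2 := z2)
      (by rw [ra z1 h1, ra z2 h2]) (x1 z1 h1) (x2 z1 h1) (x1 z2 h2) (x2 z2 h2) h12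
    have c2 := chord hP (e1 := f z1) (e2 := f z2) (z1 := z1) (z2 := z2)
      (by rw [rc z1 h1, rc z2 h2]) (x3 z1 h1) (x4 z1 h1) (x3 z2 h2) (x4 z2 h2) h12
    have d1 := hL' z1 h1
    have d2 := hL' z2 h2
    rw [← d1, ← d2] at c2
    have d3 : 0 < z2 - z1 := by linarith
    apply max_le <;> apply le_min
    · exact le_of_mul_le_mul_right (by linarith) d3
    · exact le_of_mul_le_mul_right (by linarith) d3
    · exact le_of_mul_le_mul_right (by linarith) d3
    · exact le_of_mul_le_mul_right (by linarith) d3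
  set zm := Z.min' hZ0 with hzm
  set zM := Z.max' hZ0 with hzM
  have hmm : zm ∈ Z := min'_mem _ _
  have hMM : zM ∈ Z := max'_mem _ _
  set Z' := (Z.erase zm).erase zM with hZ'
  have hcard : #Z ≤ #Z' + 2 := by
    have h1 : #Z - 1 ≤ #(Z.erase zm) := pred_card_le_card_erase
    have h2 : #(Z.erase zm) - 1 ≤ #Z' := pred_card_le_card_erase
    omega
  have hmid : ∀ z ∈ Z', ∃ pq ∈ (SwP P k Q I a c).filter (fun pq => pq.1 ∈ S ∧ pq.2 ∈ S),
      min (slE (e z)) (slE (f z)) < sl pq.1 pq.2 ∧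
      sl pq.1 pq.2 < max (slE (e z)) (slE (f z)) := by
    intro z hz
    have hz1 := mem_erase.mp hz
    have hz2 := mem_erase.mp hz1.2
    have h1 : zm < z := lt_of_le_of_ne (min'_le _ _ hz2.2) (Ne.symm hz2.1)
    have h2 : z < zM := lt_of_le_of_ne (le_max' _ _ hz2.2) hz1.1
    have o1 := ord zm hmm z hz2.2 h1
    have o2 := ord z hz2.2 zM hMM h2
    have o3 := max_le_iff.mp o1
    have o4 := max_le_iff.mp o2
    have := middle hL (e := e z) (f := f z) (e0 := e zm) (f0 := f zm) (e2 := e zM) (f2 := f zM)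
      (he z hz2.2) (hf z hz2.2) (he zM hMM) (hf zM hMM) (by rw [ra zm hmm, ra z hz2.2])
      (by rw [ra zM hMM, ra z hz2.2]) (by rw [rc zm hmm, rc z hz2.2])
      (by rw [rc zM hMM, rc z hz2.2]) (by rw [ra z hz2.2, rc z hz2.2]; exact hne)
      ((le_min_iff.mp o3.1).2) ((le_min_iff.mp o3.2).1) ((le_min_iff.mp o4.1).2)
      ((le_min_iff.mp o4.2).1)
    rw [ra z hz2.2, rc z hz2.2] at this
    obtain ⟨pq, hpq, b1, b2⟩ := this
    refine ⟨pq, mem_filter.mpr ⟨hpq, ?_⟩, b1, b2⟩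
    obtain ⟨hT, g, g', h, h', n1, n2, q1, q2, q3, q4, q5, q6, q7, q8⟩ := mem_filter.mp hpq
    have l1 := lt_of_le_of_lt o3.1 b1
    have l2 := lt_of_le_of_lt o3.2 b1
    have l3 := lt_of_lt_of_le b2 (max_le (le_min_iff.mp o4.1).1 (le_min_iff.mp o4.2).1)
    have l4 := lt_of_lt_of_le b2 (max_le (le_min_iff.mp o4.1).2 (le_min_iff.mp o4.2).2)
    have p1 := pos_between hP (e := e zm) (e' := e zM) (m := m) n1 (by rw [ra zm hmm, q1])
      (by rw [ra zM hMM, q1]) (by linarith) (by linarith) hm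
    have p2 := pos_between hP (e := f zm) (e' := f zM) (m := m) n2 (by rw [rc zm hmm, q2])
      (by rw [rc zM hMM, q2]) (by linarith) (by linarith) hm
    rw [q3] at p1
    rw [q4] at p2
    have hT' := mem_product.mp hT
    exact ⟨hS _ (he0 zm hmm) _ (he0 zM hMM) _ hT'.1 p1.1 p1.2,
      hS _ (hf0 zm hmm) _ (hf0 zM hMM) _ hT'.2 p2.1 p2.2⟩
  choose! ψ hψ1 hψ2 hψ3 using hmid
  have hinj : #Z' ≤ #((SwP P k Q I a c).filter (fun pq => pq.1 ∈ S ∧ pq.2 ∈ S)) := by
    refine card_le_card_of_injOn ψ (fun z hz => hψ1 z hz) ?_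
    intro z hz z' hz' heq
    have heq' : ψ z = ψ z' := heq
    have hz1 : z ∈ Z := mem_of_mem_erase (mem_of_mem_erase hz)
    have hz2 : z' ∈ Z := mem_of_mem_erase (mem_of_mem_erase hz')
    rcases lt_trichotomy z z' with h | h | h
    · exfalso
      have o1 := ord z hz1 z' hz2 h
      have h1 := hψ3 z hz
      have h2 := hψ2 z' hz'
      rw [heq'] at h1
      linarith
    · exact h
    · exfalso
      have o1 := ord z' hz2 z hz1 h
      have h1 := hψ3 z' hz'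
      have h2 := hψ2 z hz
      rw [heq'] at h2
      linarith
  omega

open Classical in
/-- the crossing pairs (smaller slope first) of the edges of `G` -/
noncomputable def CrG (G : Finset Eg) : Finset (Eg × Eg) :=
  {ef ∈ G ×ˢ G | slE ef.1 < slE ef.2 ∧ UB350.Cr ef.1 ef.2}

theorem mem_CrG {G : Finset Eg} {ef : Eg × Eg} :
    ef ∈ CrG G ↔ ef.1 ∈ G ∧ ef.2 ∈ G ∧ slE ef.1 < slE ef.2 ∧ UB350.Cr ef.1 ef.2 := by
  classical
  unfold CrG
  rw [mem_filter, mem_product]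
  tauto

theorem CrG_complete (hP : Good P) {G : Finset Eg} (hG : G ⊆ EdIn P k Q I) {e f : Eg}
    (he : e ∈ G) (hf : f ∈ G) (hne : e ≠ f) (h : UB350.Cr e f) :
    (e, f) ∈ CrG G ∨ (f, e) ∈ CrG G := by
  rcases lt_trichotomy (slE e) (slE f) with h1 | h1 | h1
  · left; exact mem_CrG.2 ⟨he, hf, h1, h⟩
  · exact absurd (slE_inj hP (mem_EdIn.mp (hG he)).1 (mem_EdIn.mp (hG hf)).1 h1) hne
  · right; exact mem_CrG.2 ⟨hf, he, h1, h.symm⟩

open Classical in
/-- **number of crossings inside a strip** -/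
theorem card_CrG (hL : Loc P k Q I) {m : ℝ}
    (hm : ∀ e ∈ EdIn P k Q I, m ≤ slE e) (G : Finset Eg) (hG : G ⊆ EdIn P k Q I)
    (S : Finset Pt) (hS : ∀ e ∈ G, ∀ e' ∈ G, ∀ v ∈ Tch P k Q I, ht m e.2 ≤ ht m v →
      ht m v ≤ ht m e'.1 → v ∈ S) :
    #(CrG G) ≤ 2 * #(G.image (root P k Q I)) ^ 2 + #S ^ 2 := by
  have hP := hL.good
  have hx : ∀ ef ∈ CrG G, ∃ x, ef.1.1.1 < x ∧ x < ef.1.2.1 ∧ ef.2.1.1 < x ∧ x < ef.2.2.1 ∧
      UB350.yv ef.1 x = UB350.yv ef.2 x := fun ef hef => (mem_CrG.1 hef).2.2.2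
  choose! X hX using hx
  set R := G.image (root P k Q I) with hR
  set F := (R ×ˢ R).filter (fun ac => ac.1 ≠ ac.2) with hF
  let fib : Eg × Eg → Finset (Eg × Eg) := fun ac =>
    (CrG G).filter (fun ef => (root P k Q I ef.1, root P k Q I ef.2) = ac)
  have hmaps : ∀ ef ∈ CrG G, (root P k Q I ef.1, root P k Q I ef.2) ∈ F := by
    intro ef hef
    obtain ⟨h3, h4, h5, h6⟩ := mem_CrG.1 hef
    obtain ⟨g1, g2, g3, g4, g5⟩ := hX ef hef
    refine mem_filter.2 ⟨mem_product.2 ⟨mem_image_of_mem _ h3, mem_image_of_mem _ h4⟩, ?_⟩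
    intro hr
    have := H882.eq_of_root hP (hG h3) (hG h4) hr g1 g2 g3 g4
    rw [this] at h5
    exact lt_irrefl _ h5
  have hcard : #(CrG G) = ∑ ac ∈ F, #(fib ac) :=
    card_eq_sum_card_fiberwise hmaps
  have hfib : ∀ ac ∈ F, #(fib ac) ≤
      2 + #((SwP P k Q I ac.1 ac.2).filter (fun pq => pq.1 ∈ S ∧ pq.2 ∈ S)) := by
    intro ac hac
    have h1 : #(fib ac) = #((fib ac).image X) := by
      symm
      apply card_image_of_injOn
      intro ef hef ef' hef' hxx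
      obtain ⟨h1, h2⟩ := mem_filter.1 (mem_coe.1 hef)
      obtain ⟨h1', h2'⟩ := mem_filter.1 (mem_coe.1 hef')
      obtain ⟨h3, h4, h5, h6⟩ := mem_CrG.1 h1
      obtain ⟨h3', h4', h5', h6'⟩ := mem_CrG.1 h1'
      obtain ⟨g1, g2, g3, g4, g5⟩ := hX ef h1
      obtain ⟨g1', g2', g3', g4', g5'⟩ := hX ef' h1'
      rw [← hxx] at g1' g2' g3' g4'
      have hr := h2.trans h2'.symm
      rw [Prod.mk.injEq] at hr
      exact Prod.ext (H882.eq_of_root hP (hG h3) (hG h3') hr.1 g1 g2 g1' g2')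
        (H882.eq_of_root hP (hG h4) (hG h4') hr.2 g3 g4 g3' g4')
    rw [h1]
    refine pair_count_loc hL (mem_filter.1 hac).2 hm G hG S hS _ ?_
    intro z hz
    obtain ⟨ef, hef, rfl⟩ := mem_image.1 hz
    obtain ⟨h1, h2⟩ := mem_filter.1 hef
    obtain ⟨h3, h4, h5, h6⟩ := mem_CrG.1 h1
    obtain ⟨g1, g2, g3, g4, g5⟩ := hX ef h1
    rw [← h2]
    rw [H882.yv_eq_Ln, H882.yv_eq_Ln] at g5
    exact ⟨ef.1, h3, ef.2, h4, rfl, rfl, g1.le, g2.le, g3.le, g4.le, g5⟩
  rw [hcard]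
  refine (sum_le_sum hfib).trans ?_
  rw [sum_add_distrib, sum_const, smul_eq_mul, mul_comm]
  have h3 : #F ≤ #R ^ 2 := by
    calc #F ≤ #(R ×ˢ R) := card_filter_le _ _
      _ = #R ^ 2 := by rw [card_product, sq]
  have h4 : ∑ ac ∈ F, #((SwP P k Q I ac.1 ac.2).filter (fun pq => pq.1 ∈ S ∧ pq.2 ∈ S))
      ≤ #S ^ 2 := by
    rw [← card_biUnion]
    · calc #(F.biUnion fun ac => (SwP P k Q I ac.1 ac.2).filter (fun pq => pq.1 ∈ S ∧ pq.2 ∈ S))
          ≤ #(S ×ˢ S) := by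
            apply card_le_card
            intro pq hpq
            obtain ⟨ac, _, h5⟩ := mem_biUnion.mp hpq
            exact mem_product.2 (mem_filter.mp h5).2
        _ = #S ^ 2 := by rw [card_product, sq]
    · intro ac _ ac' _ hne
      rw [Function.onFun, disjoint_left]
      intro pq h5 h6
      obtain ⟨h7, h8⟩ := SwP_disj hP (mem_filter.1 h5).1 (mem_filter.1 h6).1
      exact hne (Prod.ext h7 h8)
  omega

end Vale.Agent.P065.H537
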